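/-!
A branch and bound checker on natural numbers for the closure inequality, written with the
primitive operations on `Nat` and the recursors, so that the kernel evaluates it quickly.  Box
coordinates are integers in units of `1 / 65536`, masses in units of `1 / 1000000`.
-/

namespace Vale.Agent.Lib.P226C.Grid

/-- The maximum. -/
noncomputable def nmx (a b : Nat) : Nat := Bool.rec a b (Nat.ble a b)

/-- Strict comparison. -/
def lt (a b : Nat) : Bool := Nat.ble (Nat.add a 1) b

/-- Boolean or, lazy in the second argument. -/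
noncomputable def bor (a b : Bool) : Bool := Bool.rec b true a

/-- Boolean and, lazy in the second argument. -/
noncomputable def band (a b : Bool) : Bool := Bool.rec false b a

/-- A Newton step for the square root. -/
def nwS (n x : Nat) : Nat := Nat.shiftRight (Nat.add x (Nat.div n x)) 1

/-- An approximation of the integer square root. -/
def isq (n : Nat) : Nat :=
  nwS n (nwS n (nwS n (nwS n (nwS n (nwS n (nwS n
    (Nat.shiftLeft 1 (Nat.add (Nat.shiftRight (Nat.log2 n) 1) 1))))))))

/-- An upper bound for the square root, from a candidate. -/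
noncomputable def sqUaux (n u : Nat) : Nat :=
  Bool.rec (Bool.rec (Nat.add n 1) (Nat.add u 1) (Nat.ble n (Nat.mul (Nat.add u 1) (Nat.add u 1))))
    u (Nat.ble n (Nat.mul u u))

/-- An upper bound for the square root. -/
noncomputable def sqU (n : Nat) : Nat := sqUaux n (isq n)

/-- A lower bound for the square root, from a candidate. -/
noncomputable def sqLaux (n u : Nat) : Nat :=
  Bool.rec (Bool.rec 0 (Nat.sub u 1) (Nat.ble (Nat.mul (Nat.sub u 1) (Nat.sub u 1)) n))
    u (Nat.ble (Nat.mul u u) n)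

/-- A lower bound for the square root. -/
noncomputable def sqL (n : Nat) : Nat := sqLaux n (isq n)

/-- A Newton step for the cube root. -/
def nwC (n x : Nat) : Nat := Nat.div (Nat.add (Nat.mul 2 x) (Nat.div n (Nat.mul x x))) 3

/-- An approximation of the integer cube root. -/
def icb (n : Nat) : Nat :=
  nwC n (nwC n (nwC n (nwC n (nwC n (nwC n (nwC n (nwC n
    (Nat.shiftLeft 1 (Nat.add (Nat.div (Nat.log2 n) 3) 1)))))))))

/-- An upper bound for the cube root, from a candidate. -/
noncomputable def cbUaux (n u : Nat) : Nat :=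
  Bool.rec (Bool.rec (Nat.add n 1) (Nat.add u 1)
      (Nat.ble n (Nat.mul (Nat.mul (Nat.add u 1) (Nat.add u 1)) (Nat.add u 1))))
    u (Nat.ble n (Nat.mul (Nat.mul u u) u))

/-- An upper bound for the cube root. -/
noncomputable def cbU (n : Nat) : Nat := cbUaux n (icb n)

/-- A leaf of the mass function, from the tangent line `a ≤ (L + N q) / 10 ^ 6`. The arguments are
`L * 65536` and `N * 65536`. -/
def lf (Ls Ns x : Nat) : Nat :=
  Nat.div (Nat.mul (Nat.sub (Nat.mul x 1000000) Ls) 1000000) Ns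

/-- A branching of the mass function. -/
noncomputable def bq (t : Nat) (f g : Nat → Nat) (x : Nat) : Nat := Bool.rec (g x) (f x) (Nat.ble x t)

/-- The lower bound of the second moment determinant, scaled. -/
def dval (R1 R2 w m : Nat) : Nat :=
  Nat.div (Nat.sub (Nat.mul (Nat.mul m R1) (Nat.sub R2 w)) (Nat.mul R2 R2)) m

/-- The floor rule at a level `b`, with the cube roots. -/
noncomputable def ruleF (b a w D : Nat) : Bool :=
  (fun z => lt (Nat.mul (Nat.mul (Nat.mul z z) z) 1000)
      (Nat.mul (Nat.mul (Nat.add b 1) (Nat.mul 9423 D)) 65536))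
    (Nat.add (Nat.mul b (cbU (Nat.mul a 4294967296))) (cbU (Nat.mul (sqU w) 4294967296)))

/-- The floor rule with a quick necessary test. -/
noncomputable def ruleFp (b c L a sh w d : Nat) : Bool :=
  band ((fun v => lt (Nat.mul 4294967296000000 (Nat.mul v v)) (Nat.mul L d))
      (Nat.add (Nat.mul c a) (nmx a sh)))
    (ruleF b a w (sqL d))

/-- The rules that use the tail constants, `dm` being the best determinant at level five. -/
noncomputable def ruleT (K1 K2 sl w5 T dm : Nat) : Bool :=
  bor (lt (Nat.mul w5 18446744073709551616000000) (Nat.mul K1 dm))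
    (band (Nat.ble 1 dm) (band (Nat.ble (Nat.mul w5 68719476736000000) (Nat.mul 88792929 dm))
      ((fun t => Nat.ble (Nat.mul (Nat.mul t t) 18446744073709551616000000) (Nat.mul K2 dm))
        (Nat.sub T (Nat.div (Nat.mul 9 sl) 10)))))

/-- The rules that use the thickness. -/
noncomputable def ruleD (K1 K2 a3h a4h sl sh w5 a3hh a4hh R1 R2 R3 R4 T : Nat) : Bool :=
  (fun w4 =>
  bor (ruleFp 3 63 1420686864 a3h sh (Nat.add w4 a3hh)
        (dval R1 R2 (Nat.add w4 a3hh) 4))
   (bor (ruleFp 4 124 2219823225 a4h sh w4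
        (nmx (dval R1 R2 w4 4) (dval R2 R3 w4 9)))
     (ruleT K1 K2 sl w5 T (nmx (nmx (dval R1 R2 w5 4) (dval R2 R3 w5 9)) (dval R3 R4 w5 16)))))
  (Nat.add w5 a4hh)

/-- A lower bound of the square root on the relevant range, from a first guess. -/
noncomputable def a0g (tau s : Nat) : Nat :=
  (fun v => (fun u => Bool.rec 0 u (Nat.ble (Nat.mul u u) tau))
      (Nat.sub v (Nat.add (Nat.shiftRight v 14) 1)))
    (nwS tau (nwS tau s))

/-- A lower bound of the square root on the relevant range. -/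
noncomputable def a0c (tau : Nat) : Nat :=
  Bool.rec
    (Bool.rec
      (Bool.rec
        (Bool.rec 0 (a0g tau 29491) (Nat.ble 687194768 tau))
        (a0g tau 37355) (Nat.ble 1073741824 tau))
      (a0g tau 47186) (Nat.ble 1759218604 tau))
    (a0g tau 58982) (Nat.ble 2748779069 tau)

/-- The cost rule, given the total lower bound `c` of the masses. -/
noncomputable def ruleC (K1 K2 a1l a2l a3l a3h a4l a4h sl sh w5 a3hh a4hh c : Nat) : Bool :=
  bor (Nat.ble 1000001 c)
    ((fun T =>
      bor (Nat.ble T sl)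
        (bor (band (Nat.ble 1 a4h) (Nat.ble (Nat.mul T a4h) (Nat.mul sl sl)))
          (ruleD K1 K2 a3h a4h sl sh w5 a3hh a4hh (Nat.mul a1l a1l) (Nat.mul a2l a2l)
            (Nat.mul a3l a3l) (Nat.mul a4l a4l) T)))
      (Nat.add (Nat.div (Nat.mul (Nat.sub 1000001 c) 232325120) 1000000000) 1))

/-- The rules after the order rule, with the squares of the upper ends. -/
noncomputable def ruleE (qf : Nat → Nat) (K1 K2 a1l a1h a2l a2h a3l a3h a4l a4h sl sh a3hh a4hh w5 : Nat) :
    Bool :=
  (fun tau =>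
    bor (lt 4294967296 tau)
      (ruleC K1 K2 a1l a2l a3l a3h a4l a4h sl sh w5 a3hh a4hh
        (Nat.add (qf (nmx a1l (a0c tau))) (Nat.add (qf a1l) (Nat.add (qf a2l)
          (Nat.add (qf a3l) (qf a4l)))))))
    (Nat.sub 9663676416 (Nat.add (Nat.mul a1h a1h) (Nat.add (Nat.mul a2h a2h) (Nat.add a3hh
      (Nat.add a4hh w5)))))

/-- All rules on one box. -/
noncomputable def check (qf : Nat → Nat) (K1 K2 a1l a1h a2l a2h a3l a3h a4l a4h sl sh : Nat) : Bool :=
  bor (lt a1h a2l) (bor (lt a2h a3l) (bor (lt a3h a4l)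
    (ruleE qf K1 K2 a1l a1h a2l a2h a3l a3h a4l a4h sl sh (Nat.mul a3h a3h) (Nat.mul a4h a4h)
      (Nat.mul sh sh))))

/-- The midpoint. -/
def md (l h : Nat) : Nat := Nat.shiftRight (Nat.add l h) 1

/-- One round of splits: the last coordinate. -/
noncomputable def st5 (qf : Nat → Nat) (K1 K2 : Nat)
    (ih : Nat → Nat → Nat → Nat → Nat → Nat → Nat → Nat → Nat → Nat → Bool)
    (a1l a1h a2l a2h a3l a3h a4l a4h sl sh : Nat) : Bool :=
  bor (check qf K1 K2 a1l a1h a2l a2h a3l a3h a4l a4h sl sh)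
    (band (ih a1l a1h a2l a2h a3l a3h a4l a4h sl (md sl sh))
      (ih a1l a1h a2l a2h a3l a3h a4l a4h (md sl sh) sh))

/-- One round of splits: the fourth coordinate. -/
noncomputable def st4 (qf : Nat → Nat) (K1 K2 : Nat)
    (ih : Nat → Nat → Nat → Nat → Nat → Nat → Nat → Nat → Nat → Nat → Bool)
    (a1l a1h a2l a2h a3l a3h a4l a4h sl sh : Nat) : Bool :=
  bor (check qf K1 K2 a1l a1h a2l a2h a3l a3h a4l a4h sl sh)
    (band (st5 qf K1 K2 ih a1l a1h a2l a2h a3l a3h a4l (md a4l a4h) sl sh)
      (st5 qf K1 K2 ih a1l a1h a2l a2h a3l a3h (md a4l a4h) a4h sl sh))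

/-- One round of splits: the third coordinate. -/
noncomputable def st3 (qf : Nat → Nat) (K1 K2 : Nat)
    (ih : Nat → Nat → Nat → Nat → Nat → Nat → Nat → Nat → Nat → Nat → Bool)
    (a1l a1h a2l a2h a3l a3h a4l a4h sl sh : Nat) : Bool :=
  bor (check qf K1 K2 a1l a1h a2l a2h a3l a3h a4l a4h sl sh)
    (band (st4 qf K1 K2 ih a1l a1h a2l a2h a3l (md a3l a3h) a4l a4h sl sh)
      (st4 qf K1 K2 ih a1l a1h a2l a2h (md a3l a3h) a3h a4l a4h sl sh))

/-- One round of splits: the second coordinate. -/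
noncomputable def st2 (qf : Nat → Nat) (K1 K2 : Nat)
    (ih : Nat → Nat → Nat → Nat → Nat → Nat → Nat → Nat → Nat → Nat → Bool)
    (a1l a1h a2l a2h a3l a3h a4l a4h sl sh : Nat) : Bool :=
  bor (check qf K1 K2 a1l a1h a2l a2h a3l a3h a4l a4h sl sh)
    (band (st3 qf K1 K2 ih a1l a1h a2l (md a2l a2h) a3l a3h a4l a4h sl sh)
      (st3 qf K1 K2 ih a1l a1h (md a2l a2h) a2h a3l a3h a4l a4h sl sh))

/-- One round of splits: the first coordinate. -/
noncomputable def st1 (qf : Nat → Nat) (K1 K2 : Nat)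
    (ih : Nat → Nat → Nat → Nat → Nat → Nat → Nat → Nat → Nat → Nat → Bool)
    (a1l a1h a2l a2h a3l a3h a4l a4h sl sh : Nat) : Bool :=
  bor (check qf K1 K2 a1l a1h a2l a2h a3l a3h a4l a4h sl sh)
    (band (st2 qf K1 K2 ih a1l (md a1l a1h) a2l a2h a3l a3h a4l a4h sl sh)
      (st2 qf K1 K2 ih (md a1l a1h) a1h a2l a2h a3l a3h a4l a4h sl sh))

/-- The recursion, over rounds of splits. -/
noncomputable def recBox (qf : Nat → Nat) (K1 K2 : Nat) (fuel : Nat) :
    Nat → Nat → Nat → Nat → Nat → Nat → Nat → Nat → Nat → Nat → Bool :=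
  Nat.rec (fun a1l a1h a2l a2h a3l a3h a4l a4h sl sh =>
      check qf K1 K2 a1l a1h a2l a2h a3l a3h a4l a4h sl sh)
    (fun _ ih => st1 qf K1 K2 ih) fuel

/-- The rules of the level lemma on one box. -/
noncomputable def checkL (b Ap Bp Sp A Sb xl xh tl th : Nat) : Bool :=
  bor (lt th xl)
   (bor (lt (Nat.mul th th) (Nat.add (Nat.mul xl xl) (Nat.mul Sp Sp)))
    (bor ((fun z => lt (Nat.mul (Nat.mul z z) z) (Nat.mul (Nat.add b 1) 281474976710656))
       (Nat.add (Nat.mul b (cbU (Nat.mul xh 4294967296))) (cbU (Nat.mul th 4294967296))))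
      (band (Nat.ble Sb tl)
        (Nat.ble (Nat.add (Nat.mul 10 A) (Nat.mul 9 th))
          (Nat.add (Nat.mul 10 xl) (Nat.add (Nat.mul 10 Ap)
            (Nat.mul Bp (sqL (Nat.sub (Nat.mul tl tl) (Nat.mul xh xh))))))))))

/-- One round of splits of the level lemma: the second coordinate. -/
noncomputable def stL2 (b Ap Bp Sp A Sb : Nat) (ih : Nat → Nat → Nat → Nat → Bool)
    (xl xh tl th : Nat) : Bool :=
  bor (checkL b Ap Bp Sp A Sb xl xh tl th)
    (band (ih xl xh tl (md tl th)) (ih xl xh (md tl th) th))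

/-- One round of splits of the level lemma: the first coordinate. -/
noncomputable def stL1 (b Ap Bp Sp A Sb : Nat) (ih : Nat → Nat → Nat → Nat → Bool)
    (xl xh tl th : Nat) : Bool :=
  bor (checkL b Ap Bp Sp A Sb xl xh tl th)
    (band (stL2 b Ap Bp Sp A Sb ih xl (md xl xh) tl th)
      (stL2 b Ap Bp Sp A Sb ih (md xl xh) xh tl th))

/-- The recursion of the level lemma. -/
noncomputable def recLev (b Ap Bp Sp A Sb fuel : Nat) : Nat → Nat → Nat → Nat → Bool :=
  Nat.rec (fun xl xh tl th => checkL b Ap Bp Sp A Sb xl xh tl th)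
    (fun _ ih => stL1 b Ap Bp Sp A Sb ih) fuel

end Vale.Agent.Lib.P226C.Grid
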