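import Mathlib
import Vale.Agent.Lib.P226C.Grid

/-!
Soundness of the primitive pieces of the checker on natural numbers.
-/

namespace Vale.Agent.Lib.P226C

open Grid

theorem nmx_ge_left (a b : ℕ) : a ≤ nmx a b := by
  unfold nmx
  cases h : Nat.ble a b
  · exact le_refl _
  · exact Nat.le_of_ble_eq_true h

theorem nmx_ge_right (a b : ℕ) : b ≤ nmx a b := by
  unfold nmx
  cases h : Nat.ble a b
  · have : ¬ a ≤ b := fun h' => by
      rw [Nat.ble_eq_true_of_le h'] at h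
      exact Bool.noConfusion h
    show b ≤ a
    omega
  · exact le_refl _

theorem nmx_cases (a b : ℕ) : nmx a b = a ∨ nmx a b = b := by
  unfold nmx
  cases h : Nat.ble a b
  · exact Or.inl rfl
  · exact Or.inr rfl

theorem lt_spec {a b : ℕ} (h : lt a b = true) : a + 1 ≤ b := Nat.le_of_ble_eq_true h

theorem ble_spec {a b : ℕ} (h : Nat.ble a b = true) : a ≤ b := Nat.le_of_ble_eq_true h

theorem bor_spec {a b : Bool} (h : bor a b = true) : a = true ∨ b = true := by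
  cases a
  · exact Or.inr h
  · exact Or.inl rfl

theorem band_spec {a b : Bool} (h : band a b = true) : a = true ∧ b = true := by
  cases a
  · exact Bool.noConfusion h
  · exact ⟨rfl, h⟩

theorem sqL_spec (n : ℕ) : sqL n * sqL n ≤ n := by
  unfold sqL sqLaux
  cases h : Nat.ble (Nat.mul (isq n) (isq n)) n
  · cases h2 : Nat.ble (Nat.mul (Nat.sub (isq n) 1) (Nat.sub (isq n) 1)) n
    · show 0 * 0 ≤ n
      simp
    · exact Nat.le_of_ble_eq_true h2
  · exact Nat.le_of_ble_eq_true h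

theorem sqU_spec (n : ℕ) : n ≤ sqU n * sqU n := by
  unfold sqU sqUaux
  cases h : Nat.ble n (Nat.mul (isq n) (isq n))
  · cases h2 : Nat.ble n (Nat.mul (Nat.add (isq n) 1) (Nat.add (isq n) 1))
    · show n ≤ (n + 1) * (n + 1)
      nlinarith
    · exact Nat.le_of_ble_eq_true h2
  · exact Nat.le_of_ble_eq_true h

theorem cbU_spec (n : ℕ) : n ≤ cbU n * cbU n * cbU n := by
  unfold cbU cbUaux
  cases h : Nat.ble n (Nat.mul (Nat.mul (icb n) (icb n)) (icb n))
  · cases h2 : Nat.ble n (Nat.mul (Nat.mul (Nat.add (icb n) 1) (Nat.add (icb n) 1))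
      (Nat.add (icb n) 1))
    · show n ≤ (n + 1) * (n + 1) * (n + 1)
      nlinarith [Nat.zero_le n, Nat.zero_le (n * n)]
    · exact Nat.le_of_ble_eq_true h2
  · exact Nat.le_of_ble_eq_true h

theorem a0g_spec (tau s : ℕ) : a0g tau s * a0g tau s ≤ tau := by
  unfold a0g
  show (Bool.rec 0 _ (Nat.ble _ tau) : ℕ) * (Bool.rec 0 _ (Nat.ble _ tau) : ℕ) ≤ tau
  cases h : Nat.ble (Nat.mul (Nat.sub (nwS tau (nwS tau s))
      (Nat.add (Nat.shiftRight (nwS tau (nwS tau s)) 14) 1))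
      (Nat.sub (nwS tau (nwS tau s)) (Nat.add (Nat.shiftRight (nwS tau (nwS tau s)) 14) 1))) tau
  · show 0 * 0 ≤ tau
    simp
  · exact Nat.le_of_ble_eq_true h

theorem a0c_spec (tau : ℕ) : a0c tau * a0c tau ≤ tau := by
  unfold a0c
  cases h1 : Nat.ble 2748779069 tau
  · cases h2 : Nat.ble 1759218604 tau
    · cases h3 : Nat.ble 1073741824 tau
      · cases h4 : Nat.ble 687194768 tau
        · show 0 * 0 ≤ tau
          simp
        · exact a0g_spec _ _
      · exact a0g_spec _ _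
    · exact a0g_spec _ _
  · exact a0g_spec _ _

/-- The mass function gives lower bounds of the mass `q` at the coordinate `a`. -/
def Good (qf : ℕ → ℕ) (a q : ℝ) : Prop :=
  ∀ x : ℕ, (x : ℝ) ≤ 65536 * a → (qf x : ℝ) ≤ 1000000 * q

theorem cast_nsub_le (m n : ℕ) (x : ℝ) (h0 : 0 ≤ x) (h : (m : ℝ) - n ≤ x) :
    ((Nat.sub m n : ℕ) : ℝ) ≤ x := by
  show ((m - n : ℕ) : ℝ) ≤ x
  by_cases hle : n ≤ m
  · rw [Nat.cast_sub hle]
    exact h
  · rw [Nat.sub_eq_zero_of_le (by omega)]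
    simpa using h0

theorem lf_good {Ls Ns : ℕ} {a q : ℝ} (hq : 0 ≤ q)
    (hT : a * 65536000000 ≤ Ls + Ns * q) : Good (lf Ls Ns) a q := by
  intro x hx
  unfold lf
  show (((x * 1000000 - Ls) * 1000000 / Ns : ℕ) : ℝ) ≤ 1000000 * q
  rcases Nat.eq_zero_or_pos Ns with h0 | hN
  · subst h0
    simp only [Nat.div_zero, Nat.cast_zero]
    positivity
  have hNr : (0 : ℝ) < Ns := by exact_mod_cast hN
  have h1 : (x * 1000000 - Ls) * 1000000 / Ns * Ns ≤ (x * 1000000 - Ls) * 1000000 :=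
    Nat.div_mul_le_self _ _
  have h2 : (((x * 1000000 - Ls) * 1000000 / Ns : ℕ) : ℝ) * Ns
      ≤ (((x * 1000000 - Ls) * 1000000 : ℕ) : ℝ) := by exact_mod_cast h1
  have h3 : (((x * 1000000 - Ls : ℕ)) : ℝ) ≤ Ns * q := by
    apply cast_nsub_le (x * 1000000) Ls _ (by positivity)
    push_cast
    nlinarith
  have h4 : (((x * 1000000 - Ls) * 1000000 : ℕ) : ℝ) ≤ Ns * q * 1000000 := by
    push_cast
    have h5 : (((x * 1000000 - Ls : ℕ)) : ℝ) * 1000000 ≤ Ns * q * 1000000 := by nlinarith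
    simpa using h5
  have h6 : (((x * 1000000 - Ls) * 1000000 / Ns : ℕ) : ℝ) * Ns ≤ (1000000 * q) * Ns := by
    nlinarith
  exact le_of_mul_le_mul_right h6 hNr

theorem bq_good {t : ℕ} {f g : ℕ → ℕ} {a q : ℝ} (hf : Good f a q) (hg : Good g a q) :
    Good (bq t f g) a q := by
  intro x hx
  unfold bq
  cases h : Nat.ble x t
  · exact hg x hx
  · exact hf x hx

/-- The form of the second moment determinant. -/
noncomputable def dd (R1 R2 w m : ℝ) : ℝ := R1 * (R2 - w) - R2 ^ 2 / m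

theorem dd_mono {R1 R2 w A B W m : ℝ} (hm : 2 ≤ m) (h0 : 0 ≤ R1) (h1 : R1 ≤ A) (h2 : R2 ≤ B)
    (h3 : B ≤ A) (h4 : W ≤ w) (h5 : w ≤ R2) :
    dd R1 R2 w m ≤ dd A B W m := by
  unfold dd
  have hm0 : 0 < m := by linarith
  have e : A * (B - W) - B ^ 2 / m - (R1 * (R2 - w) - R2 ^ 2 / m)
      = (A - R1) * (R2 - w) + A * (w - W) + (A * (B - R2) - (B - R2) * (B + R2) / m) := by
    field_simp
    ring
  have h7 : (B - R2) * (B + R2) / m ≤ A * (B - R2) := by
    rw [div_le_iff₀ hm0]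
    have hBR : 0 ≤ B - R2 := by linarith
    have hA : 0 ≤ A := by linarith
    have h8 : B + R2 ≤ A * m := by nlinarith
    nlinarith [mul_le_mul_of_nonneg_left h8 hBR]
  have h9 : 0 ≤ (A - R1) * (R2 - w) := mul_nonneg (by linarith) (by linarith)
  have h10 : 0 ≤ A * (w - W) := mul_nonneg (by linarith) (by linarith)
  linarith

theorem dd_scale (x1 x2 y m Z : ℝ) (hm : m ≠ 0) :
    dd (Z * x1) (Z * x2) (Z * y) m = Z ^ 2 * dd x1 x2 y m := by
  unfold dd
  field_simp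

/-- The number produced by `dval` is a lower bound of the determinant form, at the real values. -/
theorem adm_of_dval {R1 R2 w m d : ℕ} {x1 x2 y : ℝ} (hm : 2 ≤ m)
    (h1 : (R1 : ℝ) ≤ 4294967296 * x1) (h2 : (R2 : ℝ) ≤ 4294967296 * x2)
    (h3 : 4294967296 * y ≤ w) (h21 : x2 ≤ x1)
    (hd : d ≤ dval R1 R2 w m) (hpos : 1 ≤ d) :
    (d : ℝ) / 4294967296 ^ 2 ≤ dd x1 x2 y m := by
  unfold dval at hd
  have hm0 : 0 < m := by omega
  have hd' : d ≤ (m * R1 * (R2 - w) - R2 * R2) / m := hd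
  have h4 : d * m ≤ m * R1 * (R2 - w) - R2 * R2 := (Nat.le_div_iff_mul_le hm0).1 hd'
  have h5 : 0 < m * R1 * (R2 - w) - R2 * R2 := by
    have : 0 < d * m := Nat.mul_pos hpos hm0
    omega
  have h6 : R2 * R2 ≤ m * R1 * (R2 - w) := by omega
  have h7 : 0 < R2 - w := by
    rcases Nat.eq_zero_or_pos (R2 - w) with h | h
    · rw [h] at h5
      simp at h5
    · exact h
  have h8 : w ≤ R2 := by omega
  have hmr : (2 : ℝ) ≤ m := by exact_mod_cast hm
  have hm0r : (0 : ℝ) < m := by linarith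
  have h9 : (d : ℝ) * m ≤ m * R1 * (R2 - w) - R2 * R2 := by
    have : ((d * m : ℕ) : ℝ) ≤ ((m * R1 * (R2 - w) - R2 * R2 : ℕ) : ℝ) := by exact_mod_cast h4
    rw [Nat.cast_sub h6, Nat.cast_mul, Nat.cast_mul (m * R1), Nat.cast_sub h8] at this
    push_cast at this
    exact this
  have h10 : (d : ℝ) ≤ dd R1 R2 w m := by
    unfold dd
    rw [le_sub_iff_add_le, ← le_sub_iff_add_le']
    rw [div_le_iff₀ hm0r]
    nlinarith
  have hwR : (w : ℝ) ≤ R2 := by exact_mod_cast h8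
  have h11 : dd R1 R2 w m ≤ dd (4294967296 * x1) (4294967296 * x2) (4294967296 * y) m :=
    dd_mono hmr (by positivity) h1 h2 (by linarith) h3 hwR
  rw [dd_scale _ _ _ _ _ hm0r.ne'] at h11
  rw [div_le_iff₀ (by positivity)]
  linarith

end Vale.Agent.Lib.P226C
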