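import Vale.Agent.Lib.P226C.Lev

/-!
The closure argument: from a sorted profile with the floors and the mass bounds to a contradiction,
given the run of the checker.
-/

namespace Vale.Agent.Lib.P226C

open Finset Grid

/-- The energy of the tail from the index `b` on. -/
noncomputable def TE (k : ℕ) (a : ℕ → ℝ) (b : ℕ) : ℝ := ∑ i ∈ Ico b k, a i ^ 2

/-- The norm of the tail from the index `b` on. -/
noncomputable def tn (k : ℕ) (a : ℕ → ℝ) (b : ℕ) : ℝ := Real.sqrt (TE k a b)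

/-- The sum of the tail from the index `b` on. -/
noncomputable def tC (k : ℕ) (a : ℕ → ℝ) (b : ℕ) : ℝ := ∑ i ∈ Ico b k, a i

/-- The hypotheses on a sorted profile `a` with masses `q`: the energy is more than `9 / 4`, the
hazard bound holds, and the floors hold for the admissible thickness. -/
structure Profile (k : ℕ) (a q : ℕ → ℝ) : Prop where
  a_nonneg : ∀ i, i < k → 0 ≤ a i
  a_anti : ∀ i j, i ≤ j → j < k → a j ≤ a i
  q_nonneg : ∀ i, i < k → 0 ≤ q i
  q_sum : ∑ i ∈ range k, q i ≤ 1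
  energy : 9 / 4 < ∑ i ∈ range k, a i ^ 2
  hazard : ∀ i, i < k → a i ≤ 709 / 200 * q i
  top : ∀ i, i < k → a i ≤ 1
  floor3 : ∀ b : ℕ, 3 ≤ b → b < k → ∀ Δ : ℝ, 0 ≤ Δ →
    Δ ^ 2 ≤ dd (a 1 ^ 2) (a 2 ^ 2) (TE k a b) 4 → FloorU b (a b) (tn k a b) Δ
  floor4 : ∀ b : ℕ, 4 ≤ b → b < k → ∀ Δ : ℝ, 0 ≤ Δ →
    Δ ^ 2 ≤ dd (a 2 ^ 2) (a 3 ^ 2) (TE k a b) 9 → FloorU b (a b) (tn k a b) Δ
  floor5 : ∀ b : ℕ, 5 ≤ b → b < k → ∀ Δ : ℝ, 0 ≤ Δ →
    Δ ^ 2 ≤ dd (a 3 ^ 2) (a 4 ^ 2) (TE k a b) 16 → FloorU b (a b) (tn k a b) Δ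

theorem TE_succ {k b : ℕ} (a : ℕ → ℝ) (h : b < k) : TE k a b = a b ^ 2 + TE k a (b + 1) := by
  unfold TE
  exact Finset.sum_eq_sum_Ico_succ_bot h _

theorem tC_succ {k b : ℕ} (a : ℕ → ℝ) (h : b < k) : tC k a b = a b + tC k a (b + 1) := by
  unfold tC
  exact Finset.sum_eq_sum_Ico_succ_bot h _

theorem TE_nonneg (k b : ℕ) (a : ℕ → ℝ) : 0 ≤ TE k a b := by
  unfold TE
  exact Finset.sum_nonneg (fun i _ => sq_nonneg _)

theorem tn_nonneg (k b : ℕ) (a : ℕ → ℝ) : 0 ≤ tn k a b := Real.sqrt_nonneg _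

theorem tn_sq (k b : ℕ) (a : ℕ → ℝ) : tn k a b ^ 2 = TE k a b := Real.sq_sqrt (TE_nonneg k b a)

theorem TE_anti {k b c : ℕ} (a : ℕ → ℝ) (h : b ≤ c) : TE k a c ≤ TE k a b := by
  unfold TE
  apply Finset.sum_le_sum_of_subset_of_nonneg
  · exact Finset.Ico_subset_Ico_left h
  · exact fun i _ _ => sq_nonneg _

theorem dd_mono_w {R1 R2 w w' m : ℝ} (h1 : 0 ≤ R1) (h : w' ≤ w) : dd R1 R2 w m ≤ dd R1 R2 w' m := by
  unfold dd
  have : R1 * (R2 - w) ≤ R1 * (R2 - w') := mul_le_mul_of_nonneg_left (by linarith) h1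
  linarith

theorem tC_nonneg {k b : ℕ} {a : ℕ → ℝ} (h : ∀ i, i < k → 0 ≤ a i) : 0 ≤ tC k a b := by
  unfold tC
  exact Finset.sum_nonneg (fun i hi => h i (Finset.mem_Ico.1 hi).2)

/-- The energy of a tail is at most the largest coordinate above it times the sum. -/
theorem TE_le_mul {k b : ℕ} {a : ℕ → ℝ} {M : ℝ} (h0 : ∀ i, i < k → 0 ≤ a i)
    (hM : ∀ i, b ≤ i → i < k → a i ≤ M) : TE k a b ≤ tC k a b * M := by
  unfold TE tC
  rw [Finset.sum_mul]
  apply Finset.sum_le_sum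
  intro i hi
  have hi' := Finset.mem_Ico.1 hi
  have h1 := hM i hi'.1 hi'.2
  have h2 := h0 i hi'.2
  nlinarith

/-- The norm of a tail is at most its sum. -/
theorem tn_le_tC {k b : ℕ} {a : ℕ → ℝ} (h0 : ∀ i, i < k → 0 ≤ a i) : tn k a b ≤ tC k a b := by
  have hC := tC_nonneg (k := k) (b := b) h0
  have h1 : TE k a b ≤ tC k a b * tC k a b := by
    apply TE_le_mul h0
    intro i hi hik
    unfold tC
    exact Finset.single_le_sum (f := a) (fun j hj => h0 j (Finset.mem_Ico.1 hj).2)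
      (Finset.mem_Ico.2 ⟨hi, hik⟩)
  unfold tn
  rw [Real.sqrt_le_left hC]
  nlinarith

/-- The statement on the tail from the index `b` on, at the thickness `Δ`. -/
def TailAt (k : ℕ) (a : ℕ → ℝ) (Δ : ℝ) (b A Sb Bn : ℕ) : Prop :=
  (Sb : ℝ) / 65536 * (3 * Real.pi * Δ) ≤ tn k a b ∧
    (tn k a b ≤ 3 * Real.pi * Δ / 4 →
      (A : ℝ) / 65536 * (3 * Real.pi * Δ) + (Bn : ℝ) / 10 * tn k a b ≤ tC k a b)

theorem tailAt_terminal {k K : ℕ} {a : ℕ → ℝ} {Δ : ℝ} (h0 : ∀ i, i < k → 0 ≤ a i) :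
    TailAt k a Δ K 0 0 10 := by
  refine ⟨?_, fun _ => ?_⟩
  · simpa using tn_nonneg k K a
  · have := tn_le_tC (k := k) (b := K) h0
    simpa using this

theorem tailAt_step {k b Ap Bp Sp A Sb fuel : ℕ} {a q : ℕ → ℝ} {Δ : ℝ} (hP : Profile k a q)
    (hΔ : 0 < Δ) (hb : b < k) (hfl : FloorU b (a b) (tn k a b) Δ)
    (hrec : recLev b Ap Bp Sp A Sb fuel 0 16384 0 16384 = true) (hSb : Sb ≤ 16384)
    (h : TailAt k a Δ (b + 1) Ap Sp Bp) : TailAt k a Δ b A Sb 9 := by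
  have e : tn k a b ^ 2 = a b ^ 2 + tn k a (b + 1) ^ 2 := by
    rw [tn_sq, tn_sq, TE_succ a hb]
  have := level_step hrec hSb hΔ (hP.a_nonneg b hb) (tn_nonneg k (b + 1) a) (tn_nonneg k b a) e
    (tC_succ a hb) hfl h.1 h.2
  exact_mod_cast this

/-- The admissibility of the thickness at level five. -/
def AdmAt (k : ℕ) (a : ℕ → ℝ) (Δ : ℝ) : Prop :=
  Δ ^ 2 ≤ dd (a 1 ^ 2) (a 2 ^ 2) (TE k a 5) 4 ∨ Δ ^ 2 ≤ dd (a 2 ^ 2) (a 3 ^ 2) (TE k a 5) 9 ∨
    Δ ^ 2 ≤ dd (a 3 ^ 2) (a 4 ^ 2) (TE k a 5) 16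

/-- An admissible thickness at level five gives the floor at all higher levels. -/
theorem floor_of_adm {k b : ℕ} {a q : ℕ → ℝ} {Δ : ℝ} (hP : Profile k a q) (hΔ : 0 ≤ Δ)
    (h5 : 5 ≤ b) (hb : b < k) (h : AdmAt k a Δ) : FloorU b (a b) (tn k a b) Δ := by
  have hw : TE k a b ≤ TE k a 5 := TE_anti a h5
  rcases h with h | h | h
  · exact hP.floor3 b (by omega) hb Δ hΔ (le_trans h (dd_mono_w (sq_nonneg _) hw))
  · exact hP.floor4 b (by omega) hb Δ hΔ (le_trans h (dd_mono_w (sq_nonneg _) hw))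
  · exact hP.floor5 b (by omega) hb Δ hΔ (le_trans h (dd_mono_w (sq_nonneg _) hw))

/-- The variables of the top coordinates of a profile. -/
noncomputable def vOf (k : ℕ) (a q : ℕ → ℝ) : Vars where
  a0 := a 0
  a1 := a 1
  a2 := a 2
  a3 := a 3
  a4 := a 4
  s := tn k a 5
  s3 := tn k a 3
  s4 := tn k a 4
  C := tC k a 5
  Qt := ∑ i ∈ Ico 5 k, q i
  q0 := q 0
  q1 := q 1
  q2 := q 2
  q3 := q 3
  q4 := q 4

theorem sum_range_split {k : ℕ} (hk : 5 ≤ k) (f : ℕ → ℝ) :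
    ∑ i ∈ range k, f i = f 0 + f 1 + f 2 + f 3 + f 4 + ∑ i ∈ Ico 5 k, f i := by
  rw [Finset.range_eq_Ico, Finset.sum_eq_sum_Ico_succ_bot (by omega : 0 < k),
    Finset.sum_eq_sum_Ico_succ_bot (by omega : 0 + 1 < k),
    Finset.sum_eq_sum_Ico_succ_bot (by omega : 0 + 1 + 1 < k),
    Finset.sum_eq_sum_Ico_succ_bot (by omega : 0 + 1 + 1 + 1 < k),
    Finset.sum_eq_sum_Ico_succ_bot (by omega : 0 + 1 + 1 + 1 + 1 < k)]
  norm_num
  ring

/-- The norm of the tail from the sixth coordinate on is at most one. -/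
theorem tn5_le_one {k : ℕ} {a q : ℕ → ℝ} (hP : Profile k a q) (hk : 5 ≤ k) : tn k a 5 ≤ 1 := by
  have h4 : ∀ i, i < 5 → a 4 ≤ a i := fun i hi => hP.a_anti i 4 (by omega) (by omega)
  have h1 : ∑ i ∈ range k, a i ≤ 709 / 200 := by
    have h2 : ∑ i ∈ range k, a i ≤ ∑ i ∈ range k, (709 / 200 * q i) :=
      Finset.sum_le_sum (fun i hi => hP.hazard i (Finset.mem_range.1 hi))
    rw [← Finset.mul_sum] at h2
    have := hP.q_sum
    linarith
  rw [sum_range_split hk] at h1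
  have h2 := h4 0 (by norm_num)
  have h3 := h4 1 (by norm_num)
  have h5 := h4 2 (by norm_num)
  have h6 := h4 3 (by norm_num)
  have h7 : TE k a 5 ≤ tC k a 5 * a 4 :=
    TE_le_mul hP.a_nonneg (fun i hi hik => hP.a_anti 4 i (by omega) hik)
  have h8 : 0 ≤ a 4 := hP.a_nonneg 4 (by omega)
  have h9 : tC k a 5 ≤ 709 / 200 - 5 * a 4 := by
    unfold tC
    linarith
  have h10 : TE k a 5 ≤ 1 := by nlinarith [sq_nonneg (a 4 - 709 / 2000)]
  unfold tn
  exact Real.sqrt_le_iff.mpr ⟨zero_le_one, by simpa using h10⟩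

/-- The closure: a profile and the run of the checker are contradictory. -/
theorem closure {k : ℕ} {a q : ℕ → ℝ} (hP : Profile k a q) (hk : 5 ≤ k)
    {qf : ℕ → ℕ} {An S5n : ℕ} (hg : ∀ i, i < 5 → Good qf (a i) (q i))
    (hT : ∀ Δ : ℝ, 0 < Δ → AdmAt k a Δ → TailAt k a Δ 5 An S5n 9)
    (hfree : BoxFree qf An S5n 0 65536 0 65536 0 65536 0 65536 0 65536) : False := by
  have hE := hP.energy
  rw [sum_range_split hk] at hE
  have hB := hP.q_sum
  rw [sum_range_split hk] at hB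
  have hs5 : tn k a 5 ^ 2 = TE k a 5 := tn_sq k 5 a
  have hv : Top qf An S5n (vOf k a q) :=
    { h4 := hP.a_nonneg 4 (by omega)
      h34 := hP.a_anti 3 4 (by omega) (by omega)
      h23 := hP.a_anti 2 3 (by omega) (by omega)
      h12 := hP.a_anti 1 2 (by omega) (by omega)
      h01 := hP.a_anti 0 1 (by omega) (by omega)
      h0 := hP.top 0 (by omega)
      hs := tn_nonneg k 5 a
      hs1 := tn5_le_one hP hk
      hs4 := tn_nonneg k 4 a
      hs3 := tn_nonneg k 3 a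
      es4 := by
        show tn k a 4 ^ 2 = a 4 ^ 2 + tn k a 5 ^ 2
        rw [tn_sq, tn_sq, TE_succ a (by omega : 4 < k)]
      es3 := by
        show tn k a 3 ^ 2 = a 3 ^ 2 + tn k a 4 ^ 2
        rw [tn_sq, tn_sq, TE_succ a (by omega : 3 < k)]
      hE := by
        show 9 / 4 < a 0 ^ 2 + a 1 ^ 2 + a 2 ^ 2 + a 3 ^ 2 + a 4 ^ 2 + tn k a 5 ^ 2
        rw [hs5]
        exact hE
      g0 := hg 0 (by norm_num)
      g1 := hg 1 (by norm_num)
      g2 := hg 2 (by norm_num)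
      g3 := hg 3 (by norm_num)
      g4 := hg 4 (by norm_num)
      hB := hB
      hC := by
        show tC k a 5 ≤ 709 / 200 * ∑ i ∈ Ico 5 k, q i
        unfold tC
        rw [Finset.mul_sum]
        exact Finset.sum_le_sum (fun i hi => hP.hazard i (Finset.mem_Ico.1 hi).2)
      hCs := tn_le_tC hP.a_nonneg
      hCa := by
        show tn k a 5 ^ 2 ≤ tC k a 5 * a 4
        rw [hs5]
        exact TE_le_mul hP.a_nonneg (fun i hi hik => hP.a_anti 4 i (by omega) hik)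
      F3 := by
        intro Δ h0 h
        show FloorU 3 (a 3) (tn k a 3) Δ
        have h' : Δ ^ 2 ≤ dd (a 1 ^ 2) (a 2 ^ 2) (TE k a 3) 4 := by
          have e : (vOf k a q).s3 ^ 2 = TE k a 3 := tn_sq k 3 a
          rw [e] at h
          exact h
        have := hP.floor3 3 (le_refl _) (by omega) Δ h0 h'
        exact_mod_cast this
      F4 := by
        intro Δ h0 h
        show FloorU 4 (a 4) (tn k a 4) Δ
        have e : (vOf k a q).s4 ^ 2 = TE k a 4 := tn_sq k 4 a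
        rw [e] at h
        rcases h with h | h
        · have := hP.floor3 4 (by norm_num) (by omega) Δ h0 h
          exact_mod_cast this
        · have := hP.floor4 4 (le_refl _) (by omega) Δ h0 h
          exact_mod_cast this
      T1 := by
        intro Δ h0 h
        show (S5n : ℝ) / 65536 * (3 * Real.pi * Δ) ≤ tn k a 5
        rcases h0.eq_or_lt with e | hpos
        · rw [← e]
          simpa using tn_nonneg k 5 a
        · have e : (vOf k a q).s ^ 2 = TE k a 5 := tn_sq k 5 a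
          unfold Adm5 at h
          rw [e] at h
          exact (hT Δ hpos h).1
      T2 := by
        intro Δ h0 h hle
        show (An : ℝ) / 65536 * (3 * Real.pi * Δ) + 9 / 10 * tn k a 5 ≤ tC k a 5
        rcases h0.eq_or_lt with e | hpos
        · have h1 : tn k a 5 ≤ 0 := by
            have h2 : tn k a 5 ≤ 3 * Real.pi * Δ / 4 := hle
            rw [← e] at h2
            simpa using h2
          rw [← e]
          have h3 := tn_nonneg k 5 a
          have h4 := tn_le_tC (k := k) (b := 5) hP.a_nonneg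
          simp only [mul_zero, zero_add]
          linarith
        · have e : (vOf k a q).s ^ 2 = TE k a 5 := tn_sq k 5 a
          unfold Adm5 at h
          rw [e] at h
          have := (hT Δ hpos h).2 hle
          exact_mod_cast this }
  exact top_false hv hfree

end Vale.Agent.Lib.P226C
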