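import Vale.Agent.Lib.P226C.Sound

/-!
Soundness of the checker of the level lemma for the tail.
-/

namespace Vale.Agent.Lib.P226C

open Grid

/-- The floor inequality in normalized form. -/
def FloorN (b x t : ℝ) : Prop :=
  ∀ P R : ℝ, 0 ≤ P → 0 ≤ R → x ≤ P ^ 3 → t ≤ R ^ 3 → b + 1 ≤ (b * P + R) ^ 3

theorem floorN_of_floorU {b a σ Δ : ℝ} (hΔ : 0 < Δ) (h : FloorU b a σ Δ) :
    FloorN b (a / (3 * Real.pi * Δ)) (σ / (3 * Real.pi * Δ)) := by
  intro P R hP hR hx ht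
  have hF : 0 < 3 * Real.pi * Δ := by positivity
  obtain ⟨μ, hμ0, hμ⟩ : ∃ μ : ℝ, 0 < μ ∧ μ ^ 3 = 3 * Real.pi * Δ := by
    refine ⟨(3 * Real.pi * Δ) ^ ((1 : ℝ) / 3), by positivity, ?_⟩
    rw [← Real.rpow_natCast, ← Real.rpow_mul hF.le]
    norm_num
  have h1 : a ≤ (P * μ) ^ 3 := by
    rw [mul_pow, hμ]
    rwa [div_le_iff₀ hF] at hx
  have h2 : σ ≤ (R * μ) ^ 3 := by
    rw [mul_pow, hμ]
    rwa [div_le_iff₀ hF] at ht
  have h3 := h (P * μ) (R * μ) (by positivity) (by positivity) h1 h2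
  have e : (b * (P * μ) + R * μ) ^ 3 = (b * P + R) ^ 3 * μ ^ 3 := by ring
  rw [e, hμ] at h3
  have h4 : (b + 1) * (3 * Real.pi * Δ) ≤ (b * P + R) ^ 3 * (3 * Real.pi * Δ) := by linarith
  exact le_of_mul_le_mul_right h4 hF

/-- The conclusion of the level lemma. -/
def ClaimL (Ap Bp A Sb : ℕ) (x t t' : ℝ) : Prop :=
  (Sb : ℝ) / 65536 ≤ t ∧
    (A : ℝ) / 65536 + 9 / 10 * t ≤ x + (Ap : ℝ) / 65536 + (Bp : ℝ) / 10 * t'

/-- The hypotheses of the level lemma. -/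
structure PtL (b Sp : ℕ) (x t t' : ℝ) : Prop where
  hx : 0 ≤ x
  hxt : x ≤ t
  ht' : 0 ≤ t'
  e : t' ^ 2 = t ^ 2 - x ^ 2
  hS : (Sp : ℝ) / 65536 ≤ t'
  hF : FloorN b x t

/-- The floor rule of the level lemma, for given cube roots. -/
theorem floorL_core {b xh th P R : ℕ} {x t : ℝ} (hPs : xh * 4294967296 ≤ P * P * P)
    (hRs : th * 4294967296 ≤ R * R * R)
    (h1 : (b * P + R) * (b * P + R) * (b * P + R) + 1 ≤ (b + 1) * 281474976710656)
    (hx : 65536 * x ≤ xh) (ht : 65536 * t ≤ th) (hF : FloorN b x t) : False := by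
  have hPc : ((xh : ℝ) * 4294967296) ≤ (P : ℝ) ^ 3 := by
    have h2 : ((xh * 4294967296 : ℕ) : ℝ) ≤ ((P * P * P : ℕ) : ℝ) := by exact_mod_cast hPs
    push_cast at h2
    nlinarith
  have hRc : ((th : ℝ) * 4294967296) ≤ (R : ℝ) ^ 3 := by
    have h2 : ((th * 4294967296 : ℕ) : ℝ) ≤ ((R * R * R : ℕ) : ℝ) := by exact_mod_cast hRs
    push_cast at h2
    nlinarith
  have hp : x ≤ ((P : ℝ) / 65536) ^ 3 := by
    rw [div_pow, le_div_iff₀ (by positivity)]
    nlinarith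
  have hr : t ≤ ((R : ℝ) / 65536) ^ 3 := by
    rw [div_pow, le_div_iff₀ (by positivity)]
    nlinarith
  have h5 := hF ((P : ℝ) / 65536) ((R : ℝ) / 65536) (by positivity) (by positivity) hp hr
  have h6 : (b : ℝ) * ((P : ℝ) / 65536) + (R : ℝ) / 65536 = ((b : ℝ) * P + R) / 65536 := by ring
  rw [h6, div_pow, le_div_iff₀ (by positivity)] at h5
  have h7 : (((b * P + R) * (b * P + R) * (b * P + R) + 1 : ℕ) : ℝ)
      ≤ (((b + 1) * 281474976710656 : ℕ) : ℝ) := by exact_mod_cast h1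
  push_cast at h7
  nlinarith

theorem checkL_claim {b Ap Bp Sp A Sb xl xh tl th : ℕ} {x t t' : ℝ} (hp : PtL b Sp x t t')
    (l1 : (xl : ℝ) ≤ 65536 * x) (h1 : 65536 * x ≤ xh) (l2 : (tl : ℝ) ≤ 65536 * t)
    (h2 : 65536 * t ≤ th) (hr : checkL b Ap Bp Sp A Sb xl xh tl th = true) :
    ClaimL Ap Bp A Sb x t t' := by
  unfold checkL at hr
  have hx0 := hp.hx
  have hxt := hp.hxt
  have ht0 : 0 ≤ t := le_trans hx0 hxt
  have ht'0 := hp.ht'
  have he := hp.e
  rcases bor_spec hr with h | h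
  · exfalso
    have h3 := lt_spec h
    have h4 : (th : ℝ) + 1 ≤ xl := by exact_mod_cast h3
    linarith
  rcases bor_spec h with h | h
  · exfalso
    have h3 : th * th + 1 ≤ xl * xl + Sp * Sp := lt_spec h
    have h4 : ((th * th + 1 : ℕ) : ℝ) ≤ ((xl * xl + Sp * Sp : ℕ) : ℝ) := by exact_mod_cast h3
    push_cast at h4
    have h5 : (xl : ℝ) * xl ≤ (65536 * x) ^ 2 := by
      have : (0 : ℝ) ≤ xl := by positivity
      nlinarith
    have h6 : (65536 * t) ^ 2 ≤ (th : ℝ) * th := by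
      have : (0 : ℝ) ≤ 65536 * t := by positivity
      nlinarith
    have h7 : (Sp : ℝ) ≤ 65536 * t' := by
      have := hp.hS
      rw [div_le_iff₀ (by norm_num)] at this
      linarith
    have h8 : (Sp : ℝ) * Sp ≤ (65536 * t') ^ 2 := by
      have : (0 : ℝ) ≤ Sp := by positivity
      nlinarith
    nlinarith
  rcases bor_spec h with h | h
  · exfalso
    exact floorL_core (cbU_spec _) (cbU_spec _) (lt_spec h) h1 h2 hp.hF
  obtain ⟨h3, h4⟩ := band_spec h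
  have h3' : Sb ≤ tl := ble_spec h3
  have h3r : (Sb : ℝ) ≤ tl := by exact_mod_cast h3'
  refine ⟨?_, ?_⟩
  · rw [div_le_iff₀ (by norm_num)]
    linarith
  have h5 : 10 * A + 9 * th ≤ 10 * xl + (10 * Ap + Bp * sqL (tl * tl - xh * xh)) := ble_spec h4
  have h6 : ((10 * A + 9 * th : ℕ) : ℝ) ≤ ((10 * xl + (10 * Ap + Bp * sqL (tl * tl - xh * xh)) : ℕ) : ℝ) := by
    exact_mod_cast h5
  push_cast at h6
  have h7 : ((sqL (tl * tl - xh * xh) : ℕ) : ℝ) ≤ 65536 * t' := by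
    apply le_of_sq_le' (by positivity)
    have h8 := sqL_spec (tl * tl - xh * xh)
    have h9 : ((sqL (tl * tl - xh * xh) * sqL (tl * tl - xh * xh) : ℕ) : ℝ)
        ≤ ((tl * tl - xh * xh : ℕ) : ℝ) := by exact_mod_cast h8
    have h10 : ((tl * tl - xh * xh : ℕ) : ℝ) ≤ (65536 * t') ^ 2 := by
      apply cast_nsub_le (tl * tl) (xh * xh) _ (by positivity)
      push_cast
      have h11 : (tl : ℝ) * tl ≤ (65536 * t) ^ 2 := by
        have : (0 : ℝ) ≤ tl := by positivity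
        nlinarith
      have h12 : (65536 * x) ^ 2 ≤ (xh : ℝ) * xh := by
        have : (0 : ℝ) ≤ 65536 * x := by positivity
        nlinarith
      nlinarith
    push_cast at h9
    nlinarith
  have hBp : (0 : ℝ) ≤ Bp := by positivity
  have h13 : (Bp : ℝ) * ((sqL (tl * tl - xh * xh) : ℕ) : ℝ) ≤ Bp * (65536 * t') :=
    mul_le_mul_of_nonneg_left h7 hBp
  have e1 : (A : ℝ) / 65536 + 9 / 10 * t = (10 * A + 9 * (65536 * t)) / 655360 := by ring
  have e2 : x + (Ap : ℝ) / 65536 + (Bp : ℝ) / 10 * t' =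
      (10 * (65536 * x) + (10 * Ap + Bp * (65536 * t'))) / 655360 := by ring
  rw [e1, e2]
  apply div_le_div_of_nonneg_right _ (by norm_num)
  linarith

/-- A checker of the level lemma is sound when it accepts only boxes where the claim holds. -/
def SoundL (b Sp Ap Bp A Sb : ℕ) (x t t' : ℝ) (f : ℕ → ℕ → ℕ → ℕ → Bool) : Prop :=
  ∀ xl xh tl th : ℕ, (xl : ℝ) ≤ 65536 * x → 65536 * x ≤ xh → (tl : ℝ) ≤ 65536 * t → 65536 * t ≤ th →
    f xl xh tl th = true → ClaimL Ap Bp A Sb x t t'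

theorem stL2_sound {b Ap Bp Sp A Sb : ℕ} {x t t' : ℝ} (hp : PtL b Sp x t t') {ih}
    (hi : SoundL b Sp Ap Bp A Sb x t t' ih) :
    SoundL b Sp Ap Bp A Sb x t t' (stL2 b Ap Bp Sp A Sb ih) := by
  intro xl xh tl th l1 h1 l2 h2 hr
  unfold stL2 at hr
  rcases bor_spec hr with h | h
  · exact checkL_claim hp l1 h1 l2 h2 h
  obtain ⟨h3, h4⟩ := band_spec h
  rcases le_total (65536 * t) (md tl th : ℝ) with hm | hm
  · exact hi _ _ _ _ l1 h1 l2 hm h3
  · exact hi _ _ _ _ l1 h1 hm h2 h4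

theorem stL1_sound {b Ap Bp Sp A Sb : ℕ} {x t t' : ℝ} (hp : PtL b Sp x t t') {ih}
    (hi : SoundL b Sp Ap Bp A Sb x t t' ih) :
    SoundL b Sp Ap Bp A Sb x t t' (stL1 b Ap Bp Sp A Sb ih) := by
  intro xl xh tl th l1 h1 l2 h2 hr
  unfold stL1 at hr
  rcases bor_spec hr with h | h
  · exact checkL_claim hp l1 h1 l2 h2 h
  obtain ⟨h3, h4⟩ := band_spec h
  have hi' := stL2_sound hp hi
  rcases le_total (65536 * x) (md xl xh : ℝ) with hm | hm
  · exact hi' _ _ _ _ l1 hm l2 h2 h3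
  · exact hi' _ _ _ _ hm h1 l2 h2 h4

theorem recLev_sound {b Ap Bp Sp A Sb : ℕ} {x t t' : ℝ} (hp : PtL b Sp x t t') (fuel : ℕ) :
    SoundL b Sp Ap Bp A Sb x t t' (recLev b Ap Bp Sp A Sb fuel) := by
  induction fuel with
  | zero => exact fun _ _ _ _ l1 h1 l2 h2 hr => checkL_claim hp l1 h1 l2 h2 hr
  | succ n ih => exact stL1_sound hp ih

/-- The level lemma, in the original scale.  The tail of level `b + 1` has norm `σ'` and sum `C'`,
the tail of level `b` has norm `σ` and sum `C`, the new coordinate is `a`. -/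
theorem level_step {b Ap Bp Sp A Sb fuel : ℕ}
    (hrec : recLev b Ap Bp Sp A Sb fuel 0 16384 0 16384 = true) (hSb : Sb ≤ 16384)
    {a σ σ' C C' Δ : ℝ} (hΔ : 0 < Δ) (ha : 0 ≤ a) (hσ'0 : 0 ≤ σ') (hσ0 : 0 ≤ σ)
    (e : σ ^ 2 = a ^ 2 + σ' ^ 2) (eC : C = a + C')
    (hfl : FloorU b a σ Δ)
    (hS' : (Sp : ℝ) / 65536 * (3 * Real.pi * Δ) ≤ σ')
    (hL' : σ' ≤ 3 * Real.pi * Δ / 4 →
      (Ap : ℝ) / 65536 * (3 * Real.pi * Δ) + (Bp : ℝ) / 10 * σ' ≤ C') :
    (Sb : ℝ) / 65536 * (3 * Real.pi * Δ) ≤ σ ∧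
      (σ ≤ 3 * Real.pi * Δ / 4 → (A : ℝ) / 65536 * (3 * Real.pi * Δ) + 9 / 10 * σ ≤ C) := by
  have hF : 0 < 3 * Real.pi * Δ := by positivity
  set F := 3 * Real.pi * Δ with hFdef
  have haσ : a ≤ σ := by
    apply le_of_sq_le' hσ0
    nlinarith [sq_nonneg σ']
  have hσ'σ : σ' ≤ σ := by
    apply le_of_sq_le' hσ0
    nlinarith [sq_nonneg a]
  by_cases hc : σ ≤ F / 4
  · have hp : PtL b Sp (a / F) (σ / F) (σ' / F) := by
      refine ⟨by positivity, ?_, by positivity, ?_, ?_, floorN_of_floorU hΔ hfl⟩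
      · exact div_le_div_of_nonneg_right haσ hF.le
      · rw [div_pow, div_pow, div_pow, e]
        ring
      · rw [le_div_iff₀ hF]
        exact hS'
    have hcl := recLev_sound (Ap := Ap) (Bp := Bp) (A := A) (Sb := Sb) hp fuel 0 16384 0 16384
      (by
        have : 0 ≤ a / F := by positivity
        push_cast
        linarith)
      (by
        have h1 : a / F ≤ 1 / 4 := by
          rw [div_le_iff₀ hF]
          linarith
        push_cast
        linarith)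
      (by
        have : 0 ≤ σ / F := by positivity
        push_cast
        linarith)
      (by
        have h1 : σ / F ≤ 1 / 4 := by
          rw [div_le_iff₀ hF]
          linarith
        push_cast
        linarith) hrec
    obtain ⟨h1, h2⟩ := hcl
    refine ⟨?_, fun _ => ?_⟩
    · rwa [le_div_iff₀ hF] at h1
    · have h3 := hL' (by linarith)
      have h4 : ((A : ℝ) / 65536 + 9 / 10 * (σ / F)) * F
          ≤ (a / F + (Ap : ℝ) / 65536 + (Bp : ℝ) / 10 * (σ' / F)) * F :=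
        mul_le_mul_of_nonneg_right h2 hF.le
      have e1 : ((A : ℝ) / 65536 + 9 / 10 * (σ / F)) * F = (A : ℝ) / 65536 * F + 9 / 10 * σ := by
        field_simp
      have e2 : (a / F + (Ap : ℝ) / 65536 + (Bp : ℝ) / 10 * (σ' / F)) * F
          = a + (Ap : ℝ) / 65536 * F + (Bp : ℝ) / 10 * σ' := by
        field_simp
      rw [e1, e2] at h4
      rw [eC]
      linarith
  · push Not at hc
    refine ⟨?_, fun h => absurd h (not_le.2 hc)⟩
    have h1 : (Sb : ℝ) / 65536 ≤ 1 / 4 := by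
      have : (Sb : ℝ) ≤ 16384 := by exact_mod_cast hSb
      rw [div_le_iff₀ (by norm_num)]
      linarith
    nlinarith

end Vale.Agent.Lib.P226C
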