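import Vale.Agent.Lib.P226C.Basic

/-!
Soundness of the branch and bound checker for the top five coordinates.
-/

namespace Vale.Agent.Lib.P226C

open Grid

/-- The floor inequality at a level `b`, for the coordinate `a`, the tail norm `σ`, the thickness
`Δ`, in a form without cube roots. -/
def FloorU (b a σ Δ : ℝ) : Prop :=
  ∀ p r : ℝ, 0 ≤ p → 0 ≤ r → a ≤ p ^ 3 → σ ≤ r ^ 3 → 3 * Real.pi * Δ * (b + 1) ≤ (b * p + r) ^ 3

/-- The real variables of the top five coordinates and the tail. -/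
structure Vars where
  a0 : ℝ
  a1 : ℝ
  a2 : ℝ
  a3 : ℝ
  a4 : ℝ
  s : ℝ
  s3 : ℝ
  s4 : ℝ
  C : ℝ
  Qt : ℝ
  q0 : ℝ
  q1 : ℝ
  q2 : ℝ
  q3 : ℝ
  q4 : ℝ

/-- The admissible thickness at the tail from the sixth coordinate on. -/
def Adm5 (v : Vars) (Δ : ℝ) : Prop :=
  Δ ^ 2 ≤ dd (v.a1 ^ 2) (v.a2 ^ 2) (v.s ^ 2) 4 ∨ Δ ^ 2 ≤ dd (v.a2 ^ 2) (v.a3 ^ 2) (v.s ^ 2) 9 ∨
    Δ ^ 2 ≤ dd (v.a3 ^ 2) (v.a4 ^ 2) (v.s ^ 2) 16

/-- The hypotheses on the top five coordinates and the tail. -/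
structure Top (qf : ℕ → ℕ) (An S5n : ℕ) (v : Vars) : Prop where
  h4 : 0 ≤ v.a4
  h34 : v.a4 ≤ v.a3
  h23 : v.a3 ≤ v.a2
  h12 : v.a2 ≤ v.a1
  h01 : v.a1 ≤ v.a0
  h0 : v.a0 ≤ 1
  hs : 0 ≤ v.s
  hs1 : v.s ≤ 1
  hs4 : 0 ≤ v.s4
  hs3 : 0 ≤ v.s3
  es4 : v.s4 ^ 2 = v.a4 ^ 2 + v.s ^ 2
  es3 : v.s3 ^ 2 = v.a3 ^ 2 + v.s4 ^ 2
  hE : 9 / 4 < v.a0 ^ 2 + v.a1 ^ 2 + v.a2 ^ 2 + v.a3 ^ 2 + v.a4 ^ 2 + v.s ^ 2
  g0 : Good qf v.a0 v.q0
  g1 : Good qf v.a1 v.q1
  g2 : Good qf v.a2 v.q2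
  g3 : Good qf v.a3 v.q3
  g4 : Good qf v.a4 v.q4
  hB : v.q0 + v.q1 + v.q2 + v.q3 + v.q4 + v.Qt ≤ 1
  hC : v.C ≤ 709 / 200 * v.Qt
  hCs : v.s ≤ v.C
  hCa : v.s ^ 2 ≤ v.C * v.a4
  F3 : ∀ Δ : ℝ, 0 ≤ Δ → Δ ^ 2 ≤ dd (v.a1 ^ 2) (v.a2 ^ 2) (v.s3 ^ 2) 4 → FloorU 3 v.a3 v.s3 Δ
  F4 : ∀ Δ : ℝ, 0 ≤ Δ →
    (Δ ^ 2 ≤ dd (v.a1 ^ 2) (v.a2 ^ 2) (v.s4 ^ 2) 4 ∨ Δ ^ 2 ≤ dd (v.a2 ^ 2) (v.a3 ^ 2) (v.s4 ^ 2) 9) →
    FloorU 4 v.a4 v.s4 Δ
  T1 : ∀ Δ : ℝ, 0 ≤ Δ → Adm5 v Δ → (S5n : ℝ) / 65536 * (3 * Real.pi * Δ) ≤ v.s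
  T2 : ∀ Δ : ℝ, 0 ≤ Δ → Adm5 v Δ → v.s ≤ 3 * Real.pi * Δ / 4 →
    (An : ℝ) / 65536 * (3 * Real.pi * Δ) + 9 / 10 * v.s ≤ v.C

/-- The box of the five coordinates, in units of `1 / 65536`. -/
structure InBox (v : Vars) (a1l a1h a2l a2h a3l a3h a4l a4h sl sh : ℕ) : Prop where
  l1 : (a1l : ℝ) ≤ 65536 * v.a1
  h1 : 65536 * v.a1 ≤ a1h
  l2 : (a2l : ℝ) ≤ 65536 * v.a2
  h2 : 65536 * v.a2 ≤ a2h
  l3 : (a3l : ℝ) ≤ 65536 * v.a3
  h3 : 65536 * v.a3 ≤ a3h
  l4 : (a4l : ℝ) ≤ 65536 * v.a4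
  h4 : 65536 * v.a4 ≤ a4h
  ls : (sl : ℝ) ≤ 65536 * v.s
  hs : 65536 * v.s ≤ sh

theorem le_of_sq_le' {x y : ℝ} (hy : 0 ≤ y) (h : x ^ 2 ≤ y ^ 2) : x ≤ y := by
  by_contra hc
  push Not at hc
  nlinarith

theorem pi_lb : (9423 : ℝ) / 1000 ≤ 3 * Real.pi := by
  have := Real.pi_gt_d4
  linarith

theorem ruleF_spec {b a w D : ℕ} (hr : ruleF b a w D = true) :
    (b * cbU (a * 4294967296) + cbU (sqU w * 4294967296))
      * (b * cbU (a * 4294967296) + cbU (sqU w * 4294967296))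
      * (b * cbU (a * 4294967296) + cbU (sqU w * 4294967296)) * 1000 + 1
      ≤ (b + 1) * (9423 * D) * 65536 := by
  unfold ruleF at hr
  have h := Nat.le_of_ble_eq_true hr
  exact h

/-- The floor rule, for given cube roots. -/
theorem ruleF_core {b D a sw P R : ℕ} {x σ : ℝ} (hPs : a * 4294967296 ≤ P * P * P)
    (hRs : sw * 4294967296 ≤ R * R * R)
    (h1' : (b * P + R) * (b * P + R) * (b * P + R) * 1000 + 1 ≤ (b + 1) * (9423 * D) * 65536)
    (hx : 65536 * x ≤ a) (hσU : 65536 * σ ≤ sw)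
    (hF : 0 < D → FloorU b x σ ((D : ℝ) / 4294967296)) : False := by
  have hD : 0 < D := by
    rcases Nat.eq_zero_or_pos D with h | h
    · subst h
      simp at h1'
    · exact h
  have hF' := hF hD
  have hPc : ((a : ℝ) * 4294967296) ≤ (P : ℝ) ^ 3 := by
    have h2 : ((a * 4294967296 : ℕ) : ℝ) ≤ ((P * P * P : ℕ) : ℝ) := by exact_mod_cast hPs
    push_cast at h2
    nlinarith
  have hRc : ((sw : ℝ) * 4294967296) ≤ (R : ℝ) ^ 3 := by
    have h2 : ((sw * 4294967296 : ℕ) : ℝ) ≤ ((R * R * R : ℕ) : ℝ) := by exact_mod_cast hRs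
    push_cast at h2
    nlinarith
  have hp : x ≤ ((P : ℝ) / 65536) ^ 3 := by
    rw [div_pow]
    rw [le_div_iff₀ (by positivity)]
    nlinarith
  have hr' : σ ≤ ((R : ℝ) / 65536) ^ 3 := by
    rw [div_pow]
    rw [le_div_iff₀ (by positivity)]
    nlinarith
  have h5 := hF' ((P : ℝ) / 65536) ((R : ℝ) / 65536) (by positivity) (by positivity) hp hr'
  have h6 : (b : ℝ) * ((P : ℝ) / 65536) + (R : ℝ) / 65536 = ((b : ℝ) * P + R) / 65536 := by ring
  rw [h6, div_pow] at h5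
  have h7 : (((b * P + R) * (b * P + R) * (b * P + R) * 1000 + 1 : ℕ) : ℝ)
      ≤ (((b + 1) * (9423 * D) * 65536 : ℕ) : ℝ) := by exact_mod_cast h1'
  push_cast at h7
  have hDr : (0 : ℝ) < D := by exact_mod_cast hD
  have hb1 : (0 : ℝ) ≤ (b : ℝ) + 1 := by positivity
  have h8 : (9423 : ℝ) / 1000 * ((D : ℝ) / 4294967296) * ((b : ℝ) + 1)
      ≤ 3 * Real.pi * ((D : ℝ) / 4294967296) * ((b : ℝ) + 1) := by
    apply mul_le_mul_of_nonneg_right _ hb1
    apply mul_le_mul_of_nonneg_right pi_lb (by positivity)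
  have h9 : (9423 : ℝ) / 1000 * ((D : ℝ) / 4294967296) * ((b : ℝ) + 1)
      ≤ ((b : ℝ) * P + R) ^ 3 / 65536 ^ 3 := le_trans h8 h5
  rw [le_div_iff₀ (by positivity)] at h9
  nlinarith

/-- The floor rule, with the cube roots. -/
theorem ruleF_false {b a w D : ℕ} {x σ : ℝ} (hx : 65536 * x ≤ a) (hσ0 : 0 ≤ σ)
    (hσ : 4294967296 * σ ^ 2 ≤ w) (hF : 0 < D → FloorU b x σ ((D : ℝ) / 4294967296))
    (hr : ruleF b a w D = true) : False := by
  have hσU : 65536 * σ ≤ (sqU w : ℝ) := by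
    apply le_of_sq_le' (by positivity)
    have h3 := sqU_spec w
    have h4 : (w : ℝ) ≤ ((sqU w * sqU w : ℕ) : ℝ) := by exact_mod_cast h3
    push_cast at h4
    nlinarith
  exact ruleF_core (cbU_spec _) (cbU_spec _) (ruleF_spec hr) hx hσU hF

/-- The floor rule with the quick test. -/
theorem ruleFp_false {b c L a sh w d : ℕ} {x σ : ℝ} (hx : 65536 * x ≤ a) (hσ0 : 0 ≤ σ)
    (hσ : 4294967296 * σ ^ 2 ≤ w)
    (hF : ∀ D : ℕ, 0 < D → D * D ≤ d → FloorU b x σ ((D : ℝ) / 4294967296))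
    (hr : ruleFp b c L a sh w d = true) : False := by
  unfold ruleFp at hr
  have h := (band_spec hr).2
  exact ruleF_false hx hσ0 hσ (fun hD => hF _ hD (sqL_spec d)) h

/-- From the number `D` with `D * D ≤ d`, the thickness is admissible. -/
theorem adm_real {D d : ℕ} {y : ℝ} (hD : D * D ≤ d) (hy : (d : ℝ) / 4294967296 ^ 2 ≤ y) :
    ((D : ℝ) / 4294967296) ^ 2 ≤ y := by
  have h1 : ((D * D : ℕ) : ℝ) ≤ (d : ℝ) := by exact_mod_cast hD
  push_cast at h1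
  rw [div_pow]
  refine le_trans ?_ hy
  apply div_le_div_of_nonneg_right _ (by positivity)
  nlinarith

/-- The cost contradiction, from a lower bound of the tail sum. -/
theorem cost_false {c T : ℕ} {v : Vars} {qf : ℕ → ℕ} {An S5n : ℕ} (hv : Top qf An S5n v)
    (hc : (c : ℝ) ≤ 1000000 * (v.q0 + v.q1 + v.q2 + v.q3 + v.q4))
    (hT : T = (1000001 - c) * 232325120 / 1000000000 + 1) (hC : (T : ℝ) ≤ 65536 * v.C) : False := by
  have h0 : (1000001 - c) * 232325120 < T * 1000000000 := by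
    rw [hT]
    have h2 := Nat.lt_mul_div_succ ((1000001 - c) * 232325120) (show 0 < 1000000000 by norm_num)
    rw [Nat.mul_comm 1000000000] at h2
    exact h2
  have h1 : (((1000001 - c : ℕ) : ℝ)) * 232325120 ≤ (T : ℝ) * 1000000000 := by
    have : ((((1000001 - c) * 232325120 : ℕ)) : ℝ) ≤ ((T * 1000000000 : ℕ) : ℝ) := by
      exact_mod_cast h0.le
    push_cast at this
    exact this
  have h2 : (1000001 : ℝ) - c ≤ ((1000001 - c : ℕ) : ℝ) := by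
    have := Nat.le_add_right 1000001 0
    rcases le_total c 1000001 with h | h
    · rw [Nat.cast_sub h]
      simp
    · have h3 : (1000001 : ℝ) ≤ c := by exact_mod_cast h
      rw [Nat.sub_eq_zero_of_le h]
      simp
      linarith
  have hT1 := hv.hC
  have hB := hv.hB
  have h3 : (T : ℝ) ≤ 65536 * (709 / 200 * v.Qt) := by linarith
  have h4 : (1000001 - (c : ℝ)) * 232325120 ≤ (65536 * (709 / 200 * v.Qt)) * 1000000000 := by
    nlinarith
  nlinarith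

/-- The cost rule, when the sum of the masses of the top exceeds one. -/
theorem cost_false0 {c : ℕ} {v : Vars} {qf : ℕ → ℕ} {An S5n : ℕ} (hv : Top qf An S5n v)
    (hc : (c : ℝ) ≤ 1000000 * (v.q0 + v.q1 + v.q2 + v.q3 + v.q4))
    (h : 1000001 ≤ c) : False := by
  have h1 : (1000001 : ℝ) ≤ c := by exact_mod_cast h
  have hQ : 0 ≤ v.Qt := by
    have := hv.hC
    have := hv.hCs
    have := hv.hs
    linarith
  have := hv.hB
  linarith

/-- The tail rule: the domain rule and the linear rule. -/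
theorem ruleT_false {K1 K2 An S5n sl w5 T dm sh c : ℕ} {v : Vars} {qf : ℕ → ℕ}
    (hK1 : K1 = (S5n * 9423) ^ 2) (hK2 : K2 = (An * 9423) ^ 2)
    (hv : Top qf An S5n v)
    (hsl : (sl : ℝ) ≤ 65536 * v.s) (hsh : 65536 * v.s ≤ sh) (hw5 : w5 = sh * sh)
    (hc : (c : ℝ) ≤ 1000000 * (v.q0 + v.q1 + v.q2 + v.q3 + v.q4))
    (hT : T = (1000001 - c) * 232325120 / 1000000000 + 1)
    (hadm : 1 ≤ dm → (dm : ℝ) / 4294967296 ^ 2 ≤ dd (v.a1 ^ 2) (v.a2 ^ 2) (v.s ^ 2) 4 ∨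
      (dm : ℝ) / 4294967296 ^ 2 ≤ dd (v.a2 ^ 2) (v.a3 ^ 2) (v.s ^ 2) 9 ∨
      (dm : ℝ) / 4294967296 ^ 2 ≤ dd (v.a3 ^ 2) (v.a4 ^ 2) (v.s ^ 2) 16)
    (hr : ruleT K1 K2 sl w5 T dm = true) : False := by
  unfold ruleT at hr
  -- the real thickness
  have hδ : ∀ hd : 1 ≤ dm, 0 ≤ Real.sqrt dm / 4294967296 ∧
      Adm5 v (Real.sqrt dm / 4294967296) := by
    intro hd
    refine ⟨by positivity, ?_⟩
    have e : (Real.sqrt dm / 4294967296) ^ 2 = (dm : ℝ) / 4294967296 ^ 2 := by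
      rw [div_pow, Real.sq_sqrt (by positivity)]
    unfold Adm5
    rw [e]
    exact hadm hd
  have hs0 := hv.hs
  have hshr : (0 : ℝ) ≤ sh := by positivity
  rcases bor_spec hr with h | h
  · -- domain
    have h1 := lt_spec h
    have h1' : w5 * 18446744073709551616000000 + 1 ≤ K1 * dm := h1
    have hd : 1 ≤ dm := by
      rcases Nat.eq_zero_or_pos dm with h0 | h0
      · subst h0
        simp at h1'
      · exact h0
    obtain ⟨hΔ0, hΔ⟩ := hδ hd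
    have h2 := hv.T1 _ hΔ0 hΔ
    have hsq : Real.sqrt dm ^ 2 = dm := Real.sq_sqrt (by positivity)
    have hsq0 : 0 ≤ Real.sqrt dm := Real.sqrt_nonneg _
    have h3 : (S5n : ℝ) * 9423 * Real.sqrt dm ≤ (sh : ℝ) * (1000 * 4294967296) := by
      have h4 : (S5n : ℝ) / 65536 * ((9423 / 1000) * (Real.sqrt dm / 4294967296))
          ≤ (S5n : ℝ) / 65536 * (3 * Real.pi * (Real.sqrt dm / 4294967296)) := by
        apply mul_le_mul_of_nonneg_left _ (by positivity)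
        apply mul_le_mul_of_nonneg_right pi_lb hΔ0
      have h5 : (S5n : ℝ) / 65536 * ((9423 / 1000) * (Real.sqrt dm / 4294967296)) ≤ v.s :=
        le_trans h4 h2
      have h6 : (S5n : ℝ) * 9423 * Real.sqrt dm
          = ((S5n : ℝ) / 65536 * ((9423 / 1000) * (Real.sqrt dm / 4294967296)))
            * (65536 * 1000 * 4294967296) := by ring
      rw [h6]
      nlinarith
    have h7 : ((S5n : ℝ) * 9423 * Real.sqrt dm) ^ 2 ≤ ((sh : ℝ) * (1000 * 4294967296)) ^ 2 :=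
      pow_le_pow_left₀ (by positivity) h3 2
    rw [mul_pow, hsq] at h7
    have h8 : ((w5 * 18446744073709551616000000 + 1 : ℕ) : ℝ) ≤ ((K1 * dm : ℕ) : ℝ) := by
      exact_mod_cast h1'
    rw [hK1, hw5] at h8
    push_cast at h8
    nlinarith
  · -- linear
    obtain ⟨hd, h2⟩ := band_spec h
    obtain ⟨h3, h4⟩ := band_spec h2
    have hd' : 1 ≤ dm := ble_spec hd
    have h3' : w5 * 68719476736000000 ≤ 88792929 * dm := ble_spec h3
    have h4' : (T - 9 * sl / 10) * (T - 9 * sl / 10) * 18446744073709551616000000 ≤ K2 * dm :=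
      ble_spec h4
    obtain ⟨hΔ0, hΔ⟩ := hδ hd'
    have hsq : Real.sqrt dm ^ 2 = dm := Real.sq_sqrt (by positivity)
    have hsq0 : 0 ≤ Real.sqrt dm := Real.sqrt_nonneg _
    have hF : (9423 / 1000) * (Real.sqrt dm / 4294967296)
        ≤ 3 * Real.pi * (Real.sqrt dm / 4294967296) :=
      mul_le_mul_of_nonneg_right pi_lb hΔ0
    -- the range condition
    have h5 : (sh : ℝ) * (4000 * 65536) ≤ 9423 * Real.sqrt dm := by
      apply le_of_sq_le' (by positivity)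
      rw [mul_pow 9423, hsq]
      have h6 : ((w5 * 68719476736000000 : ℕ) : ℝ) ≤ ((88792929 * dm : ℕ) : ℝ) := by
        exact_mod_cast h3'
      rw [hw5] at h6
      push_cast at h6
      nlinarith
    have h7 : v.s ≤ 3 * Real.pi * (Real.sqrt dm / 4294967296) / 4 := by
      nlinarith
    have h8 := hv.T2 _ hΔ0 hΔ h7
    -- the tail sum
    have h9 : (((T - 9 * sl / 10 : ℕ)) : ℝ) * (1000 * 4294967296) ≤ (An : ℝ) * 9423 * Real.sqrt dm := by
      apply le_of_sq_le' (by positivity)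
      rw [mul_pow _ (Real.sqrt dm), hsq]
      have h10 : (((T - 9 * sl / 10) * (T - 9 * sl / 10) * 18446744073709551616000000 : ℕ) : ℝ)
          ≤ ((K2 * dm : ℕ) : ℝ) := by exact_mod_cast h4'
      rw [hK2] at h10
      push_cast at h10
      nlinarith
    have h11 : (An : ℝ) / 65536 * ((9423 / 1000) * (Real.sqrt dm / 4294967296))
        ≤ (An : ℝ) / 65536 * (3 * Real.pi * (Real.sqrt dm / 4294967296)) :=
      mul_le_mul_of_nonneg_left hF (by positivity)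
    have h12 : (((9 * sl / 10 : ℕ)) : ℝ) ≤ 9 / 10 * (sl : ℝ) := by
      have := Nat.div_mul_le_self (9 * sl) 10
      have h13 : (((9 * sl / 10 * 10 : ℕ)) : ℝ) ≤ ((9 * sl : ℕ) : ℝ) := by exact_mod_cast this
      push_cast at h13
      linarith
    have h13 : T ≤ (T - 9 * sl / 10) + 9 * sl / 10 := by omega
    have h14 : (T : ℝ) ≤ ((T - 9 * sl / 10 : ℕ) : ℝ) + ((9 * sl / 10 : ℕ) : ℝ) := by
      exact_mod_cast h13
    refine cost_false hv hc hT ?_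
    have h15 : (((T - 9 * sl / 10 : ℕ)) : ℝ) ≤ (An : ℝ) / 65536 * ((9423 / 1000) *
        (Real.sqrt dm / 4294967296)) * 65536 := by
      have e : (An : ℝ) / 65536 * ((9423 / 1000) * (Real.sqrt dm / 4294967296)) * 65536
          = ((An : ℝ) * 9423 * Real.sqrt dm) / (1000 * 4294967296) := by ring
      rw [e, le_div_iff₀ (by positivity)]
      exact h9
    nlinarith

theorem sq_low {l : ℕ} {x : ℝ} (hl : (l : ℝ) ≤ 65536 * x) :
    ((l * l : ℕ) : ℝ) ≤ 4294967296 * x ^ 2 := by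
  push_cast
  have h0 : (0 : ℝ) ≤ l := by positivity
  nlinarith

theorem sq_high {h : ℕ} {x : ℝ} (h0 : 0 ≤ x) (hh : 65536 * x ≤ h) :
    4294967296 * x ^ 2 ≤ ((h * h : ℕ) : ℝ) := by
  push_cast
  nlinarith

/-- The rules that use the thickness. -/
theorem ruleD_false {K1 K2 An S5n a1l a2l a3l a4l a3h a4h sl sh w5 a3hh a4hh R1 R2 R3 R4 T c : ℕ}
    {v : Vars} {qf : ℕ → ℕ}
    (hK1 : K1 = (S5n * 9423) ^ 2) (hK2 : K2 = (An * 9423) ^ 2)
    (hv : Top qf An S5n v)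
    (l1 : (a1l : ℝ) ≤ 65536 * v.a1) (l2 : (a2l : ℝ) ≤ 65536 * v.a2)
    (l3 : (a3l : ℝ) ≤ 65536 * v.a3) (l4 : (a4l : ℝ) ≤ 65536 * v.a4)
    (h3 : 65536 * v.a3 ≤ a3h) (h4 : 65536 * v.a4 ≤ a4h)
    (hsl : (sl : ℝ) ≤ 65536 * v.s) (hsh : 65536 * v.s ≤ sh)
    (hw5 : w5 = sh * sh) (ha3 : a3hh = a3h * a3h) (ha4 : a4hh = a4h * a4h)
    (hR1 : R1 = a1l * a1l) (hR2 : R2 = a2l * a2l) (hR3 : R3 = a3l * a3l) (hR4 : R4 = a4l * a4l)
    (hc : (c : ℝ) ≤ 1000000 * (v.q0 + v.q1 + v.q2 + v.q3 + v.q4))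
    (hT : T = (1000001 - c) * 232325120 / 1000000000 + 1)
    (hr : ruleD K1 K2 a3h a4h sl sh w5 a3hh a4hh R1 R2 R3 R4 T = true) : False := by
  unfold ruleD at hr
  have a40 := hv.h4
  have a30 : 0 ≤ v.a3 := le_trans a40 hv.h34
  have a20 : 0 ≤ v.a2 := le_trans a30 hv.h23
  have a10 : 0 ≤ v.a1 := le_trans a20 hv.h12
  have s0 := hv.hs
  have r1 : (R1 : ℝ) ≤ 4294967296 * v.a1 ^ 2 := by rw [hR1]; exact sq_low l1
  have r2 : (R2 : ℝ) ≤ 4294967296 * v.a2 ^ 2 := by rw [hR2]; exact sq_low l2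
  have r3 : (R3 : ℝ) ≤ 4294967296 * v.a3 ^ 2 := by rw [hR3]; exact sq_low l3
  have r4 : (R4 : ℝ) ≤ 4294967296 * v.a4 ^ 2 := by rw [hR4]; exact sq_low l4
  have o12 : v.a2 ^ 2 ≤ v.a1 ^ 2 := pow_le_pow_left₀ a20 hv.h12 2
  have o23 : v.a3 ^ 2 ≤ v.a2 ^ 2 := pow_le_pow_left₀ a30 hv.h23 2
  have o34 : v.a4 ^ 2 ≤ v.a3 ^ 2 := pow_le_pow_left₀ a40 hv.h34 2
  have w5r : 4294967296 * v.s ^ 2 ≤ (w5 : ℝ) := by rw [hw5]; exact sq_high s0 hsh
  have a4r : 4294967296 * v.a4 ^ 2 ≤ (a4hh : ℝ) := by rw [ha4]; exact sq_high a40 h4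
  have a3r : 4294967296 * v.a3 ^ 2 ≤ (a3hh : ℝ) := by rw [ha3]; exact sq_high a30 h3
  have w4r : 4294967296 * v.s4 ^ 2 ≤ ((Nat.add w5 a4hh : ℕ) : ℝ) := by
    rw [hv.es4]
    show _ ≤ ((w5 + a4hh : ℕ) : ℝ)
    push_cast
    linarith
  have w3r : 4294967296 * v.s3 ^ 2 ≤ ((Nat.add (Nat.add w5 a4hh) a3hh : ℕ) : ℝ) := by
    rw [hv.es3, mul_add]
    show _ ≤ ((Nat.add w5 a4hh + a3hh : ℕ) : ℝ)
    rw [Nat.cast_add]
    linarith
  rcases bor_spec hr with h | h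
  · refine ruleFp_false h3 hv.hs3 w3r (fun D hD hDd => ?_) h
    apply hv.F3 _ (by positivity)
    have hd1 : 1 ≤ dval R1 R2 (Nat.add (Nat.add w5 a4hh) a3hh) 4 := by
      have : 0 < D * D := Nat.mul_pos hD hD
      omega
    exact adm_real hDd (by
      have := adm_of_dval (m := 4) (d := dval R1 R2 (Nat.add (Nat.add w5 a4hh) a3hh) 4)
        (by norm_num) r1 r2 w3r o12 (le_refl _) hd1
      exact_mod_cast this)
  rcases bor_spec h with h | h
  · refine ruleFp_false h4 hv.hs4 w4r (fun D hD hDd => ?_) h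
    apply hv.F4 _ (by positivity)
    have hd1 : 1 ≤ nmx (dval R1 R2 (Nat.add w5 a4hh) 4) (dval R2 R3 (Nat.add w5 a4hh) 9) := by
      have : 0 < D * D := Nat.mul_pos hD hD
      omega
    rcases nmx_cases (dval R1 R2 (Nat.add w5 a4hh) 4) (dval R2 R3 (Nat.add w5 a4hh) 9) with e | e
    · rw [e] at hd1 hDd
      left
      exact adm_real hDd (by
        have := adm_of_dval (m := 4) (d := dval R1 R2 (Nat.add w5 a4hh) 4)
          (by norm_num) r1 r2 w4r o12 (le_refl _) hd1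
        exact_mod_cast this)
    · rw [e] at hd1 hDd
      right
      exact adm_real hDd (by
        have := adm_of_dval (m := 9) (d := dval R2 R3 (Nat.add w5 a4hh) 9)
          (by norm_num) r2 r3 w4r o23 (le_refl _) hd1
        exact_mod_cast this)
  · refine ruleT_false hK1 hK2 hv hsl hsh hw5 hc hT (fun hd1 => ?_) h
    rcases nmx_cases (nmx (dval R1 R2 w5 4) (dval R2 R3 w5 9)) (dval R3 R4 w5 16) with e | e
    · rw [e] at hd1 ⊢
      rcases nmx_cases (dval R1 R2 w5 4) (dval R2 R3 w5 9) with e2 | e2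
      · rw [e2] at hd1 ⊢
        left
        have := adm_of_dval (m := 4) (d := dval R1 R2 w5 4)
          (by norm_num) r1 r2 w5r o12 (le_refl _) hd1
        exact_mod_cast this
      · rw [e2] at hd1 ⊢
        right; left
        have := adm_of_dval (m := 9) (d := dval R2 R3 w5 9)
          (by norm_num) r2 r3 w5r o23 (le_refl _) hd1
        exact_mod_cast this
    · rw [e] at hd1 ⊢
      right; right
      have := adm_of_dval (m := 16) (d := dval R3 R4 w5 16)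
        (by norm_num) r3 r4 w5r o34 (le_refl _) hd1
      exact_mod_cast this

/-- The cost rule and the rules after it. -/
theorem ruleC_false {K1 K2 An S5n a1l a2l a3l a4l a3h a4h sl sh w5 a3hh a4hh c : ℕ}
    {v : Vars} {qf : ℕ → ℕ}
    (hK1 : K1 = (S5n * 9423) ^ 2) (hK2 : K2 = (An * 9423) ^ 2)
    (hv : Top qf An S5n v)
    (l1 : (a1l : ℝ) ≤ 65536 * v.a1) (l2 : (a2l : ℝ) ≤ 65536 * v.a2)
    (l3 : (a3l : ℝ) ≤ 65536 * v.a3) (l4 : (a4l : ℝ) ≤ 65536 * v.a4)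
    (h3 : 65536 * v.a3 ≤ a3h) (h4 : 65536 * v.a4 ≤ a4h)
    (hsl : (sl : ℝ) ≤ 65536 * v.s) (hsh : 65536 * v.s ≤ sh)
    (hw5 : w5 = sh * sh) (ha3 : a3hh = a3h * a3h) (ha4 : a4hh = a4h * a4h)
    (hc : (c : ℝ) ≤ 1000000 * (v.q0 + v.q1 + v.q2 + v.q3 + v.q4))
    (hr : ruleC K1 K2 a1l a2l a3l a3h a4l a4h sl sh w5 a3hh a4hh c = true) : False := by
  unfold ruleC at hr
  rcases bor_spec hr with h | h
  · exact cost_false0 hv hc (ble_spec h)
  have hT : Nat.add (Nat.div (Nat.mul (Nat.sub 1000001 c) 232325120) 1000000000) 1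
      = (1000001 - c) * 232325120 / 1000000000 + 1 := rfl
  generalize Nat.add (Nat.div (Nat.mul (Nat.sub 1000001 c) 232325120) 1000000000) 1 = T at h hT
  have hsC := hv.hCs
  have hs0 := hv.hs
  rcases bor_spec h with h | h
  · have h1 := ble_spec h
    have h2 : (T : ℝ) ≤ sl := by exact_mod_cast h1
    exact cost_false hv hc hT (by linarith)
  rcases bor_spec h with h | h
  · obtain ⟨h1, h2⟩ := band_spec h
    have h1' := ble_spec h1
    have h2' : T * a4h ≤ sl * sl := ble_spec h2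
    have h3' : ((T * a4h : ℕ) : ℝ) ≤ ((sl * sl : ℕ) : ℝ) := by exact_mod_cast h2'
    push_cast at h3'
    have ha : (0 : ℝ) < a4h := by exact_mod_cast h1'
    refine cost_false hv hc hT ?_
    have hCa := hv.hCa
    have h40 := hv.h4
    have hC0 : 0 ≤ v.C := by linarith
    have h5 : (sl : ℝ) * sl ≤ 4294967296 * v.s ^ 2 := by
      have h0 : (0 : ℝ) ≤ sl := by positivity
      nlinarith
    have h6 : (T : ℝ) * a4h ≤ (65536 * v.C) * a4h := by
      have h7 : 65536 * v.C * (65536 * v.a4) ≤ 65536 * v.C * a4h :=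
        mul_le_mul_of_nonneg_left h4 (by positivity)
      nlinarith
    exact le_of_mul_le_mul_right h6 ha
  · exact ruleD_false hK1 hK2 hv l1 l2 l3 l4 h3 h4 hsl hsh hw5 ha3 ha4 rfl rfl rfl rfl hc hT h

/-- All rules on one box. -/
theorem check_false {qf : ℕ → ℕ} {K1 K2 An S5n : ℕ} {v : Vars}
    (hK1 : K1 = (S5n * 9423) ^ 2) (hK2 : K2 = (An * 9423) ^ 2)
    (hv : Top qf An S5n v) {a1l a1h a2l a2h a3l a3h a4l a4h sl sh : ℕ}
    (hb : InBox v a1l a1h a2l a2h a3l a3h a4l a4h sl sh)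
    (hr : check qf K1 K2 a1l a1h a2l a2h a3l a3h a4l a4h sl sh = true) : False := by
  unfold check at hr
  have a40 := hv.h4
  have a30 : 0 ≤ v.a3 := le_trans a40 hv.h34
  have a20 : 0 ≤ v.a2 := le_trans a30 hv.h23
  have a10 : 0 ≤ v.a1 := le_trans a20 hv.h12
  have a00 : 0 ≤ v.a0 := le_trans a10 hv.h01
  have s0 := hv.hs
  rcases bor_spec hr with h | h
  · have h1 := lt_spec h
    have h2 : (a1h : ℝ) + 1 ≤ a2l := by exact_mod_cast h1
    have := hb.h1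
    have := hb.l2
    have := hv.h12
    linarith
  rcases bor_spec h with h | h
  · have h1 := lt_spec h
    have h2 : (a2h : ℝ) + 1 ≤ a3l := by exact_mod_cast h1
    have := hb.h2
    have := hb.l3
    have := hv.h23
    linarith
  rcases bor_spec h with h | h
  · have h1 := lt_spec h
    have h2 : (a3h : ℝ) + 1 ≤ a4l := by exact_mod_cast h1
    have := hb.h3
    have := hb.l4
    have := hv.h34
    linarith
  unfold ruleE at h
  have htau : ((Nat.sub 9663676416 (Nat.add (Nat.mul a1h a1h) (Nat.add (Nat.mul a2h a2h)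
      (Nat.add (Nat.mul a3h a3h) (Nat.add (Nat.mul a4h a4h) (Nat.mul sh sh))))) : ℕ) : ℝ)
      ≤ (65536 * v.a0) ^ 2 := by
    apply cast_nsub_le _ _ _ (by positivity)
    have e1 := sq_high a10 hb.h1
    have e2 := sq_high a20 hb.h2
    have e3 := sq_high a30 hb.h3
    have e4 := sq_high a40 hb.h4
    have e5 := sq_high s0 hb.hs
    have e6 := hv.hE
    show ((9663676416 : ℕ) : ℝ) - ((a1h * a1h + (a2h * a2h + (a3h * a3h + (a4h * a4h + sh * sh))) : ℕ) : ℝ) ≤ _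
    rw [Nat.cast_add, Nat.cast_add, Nat.cast_add, Nat.cast_add]
    have e7 : ((9663676416 : ℕ) : ℝ) = 9663676416 := by norm_num
    rw [e7]
    nlinarith
  generalize (Nat.sub 9663676416 (Nat.add (Nat.mul a1h a1h) (Nat.add (Nat.mul a2h a2h)
      (Nat.add (Nat.mul a3h a3h) (Nat.add (Nat.mul a4h a4h) (Nat.mul sh sh)))))) = tau at h htau
  rcases bor_spec h with h | h
  · have h1 := lt_spec h
    have h2 : (4294967296 : ℝ) + 1 ≤ tau := by exact_mod_cast h1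
    have h3 := hv.h0
    nlinarith
  have hx0 : ((nmx a1l (a0c tau) : ℕ) : ℝ) ≤ 65536 * v.a0 := by
    rcases nmx_cases a1l (a0c tau) with e | e
    · rw [e]
      have := hb.l1
      have := hv.h01
      linarith
    · rw [e]
      apply le_of_sq_le' (by positivity)
      have h1 := a0c_spec tau
      have h2 : ((a0c tau * a0c tau : ℕ) : ℝ) ≤ (tau : ℝ) := by exact_mod_cast h1
      push_cast at h2
      nlinarith
  have c0 := hv.g0 _ hx0
  have c1 := hv.g1 _ hb.l1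
  have c2 := hv.g2 _ hb.l2
  have c3 := hv.g3 _ hb.l3
  have c4 := hv.g4 _ hb.l4
  refine ruleC_false hK1 hK2 hv hb.l1 hb.l2 hb.l3 hb.l4 hb.h3 hb.h4 hb.ls hb.hs rfl rfl rfl ?_ h
  show (((qf (nmx a1l (a0c tau)) + (qf a1l + (qf a2l + (qf a3l + qf a4l))) : ℕ)) : ℝ) ≤ _
  push_cast
  linarith

/-- A checker is sound when it accepts only boxes without points. -/
def SoundF (v : Vars) (f : ℕ → ℕ → ℕ → ℕ → ℕ → ℕ → ℕ → ℕ → ℕ → ℕ → Bool) : Prop :=
  ∀ a1l a1h a2l a2h a3l a3h a4l a4h sl sh, InBox v a1l a1h a2l a2h a3l a3h a4l a4h sl sh →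
    f a1l a1h a2l a2h a3l a3h a4l a4h sl sh = true → False

theorem check_sound {qf : ℕ → ℕ} {K1 K2 An S5n : ℕ} {v : Vars}
    (hK1 : K1 = (S5n * 9423) ^ 2) (hK2 : K2 = (An * 9423) ^ 2)
    (hv : Top qf An S5n v) : SoundF v (check qf K1 K2) :=
  fun _ _ _ _ _ _ _ _ _ _ hb hr => check_false hK1 hK2 hv hb hr

theorem st5_sound {qf : ℕ → ℕ} {K1 K2 An S5n : ℕ} {v : Vars}
    (hK1 : K1 = (S5n * 9423) ^ 2) (hK2 : K2 = (An * 9423) ^ 2)
    (hv : Top qf An S5n v) {ih} (hi : SoundF v ih) : SoundF v (st5 qf K1 K2 ih) := by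
  intro a1l a1h a2l a2h a3l a3h a4l a4h sl sh hb hr
  unfold st5 at hr
  rcases bor_spec hr with h | h
  · exact check_false hK1 hK2 hv hb h
  obtain ⟨h1, h2⟩ := band_spec h
  rcases le_total (65536 * v.s) (md sl sh : ℝ) with hm | hm
  · exact hi _ _ _ _ _ _ _ _ _ _ { hb with hs := hm } h1
  · exact hi _ _ _ _ _ _ _ _ _ _ { hb with ls := hm } h2

theorem st4_sound {qf : ℕ → ℕ} {K1 K2 An S5n : ℕ} {v : Vars}
    (hK1 : K1 = (S5n * 9423) ^ 2) (hK2 : K2 = (An * 9423) ^ 2)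
    (hv : Top qf An S5n v) {ih} (hi : SoundF v ih) : SoundF v (st4 qf K1 K2 ih) := by
  intro a1l a1h a2l a2h a3l a3h a4l a4h sl sh hb hr
  unfold st4 at hr
  rcases bor_spec hr with h | h
  · exact check_false hK1 hK2 hv hb h
  obtain ⟨h1, h2⟩ := band_spec h
  have hi' := st5_sound hK1 hK2 hv hi
  rcases le_total (65536 * v.a4) (md a4l a4h : ℝ) with hm | hm
  · exact hi' _ _ _ _ _ _ _ _ _ _ { hb with h4 := hm } h1
  · exact hi' _ _ _ _ _ _ _ _ _ _ { hb with l4 := hm } h2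

theorem st3_sound {qf : ℕ → ℕ} {K1 K2 An S5n : ℕ} {v : Vars}
    (hK1 : K1 = (S5n * 9423) ^ 2) (hK2 : K2 = (An * 9423) ^ 2)
    (hv : Top qf An S5n v) {ih} (hi : SoundF v ih) : SoundF v (st3 qf K1 K2 ih) := by
  intro a1l a1h a2l a2h a3l a3h a4l a4h sl sh hb hr
  unfold st3 at hr
  rcases bor_spec hr with h | h
  · exact check_false hK1 hK2 hv hb h
  obtain ⟨h1, h2⟩ := band_spec h
  have hi' := st4_sound hK1 hK2 hv hi
  rcases le_total (65536 * v.a3) (md a3l a3h : ℝ) with hm | hm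
  · exact hi' _ _ _ _ _ _ _ _ _ _ { hb with h3 := hm } h1
  · exact hi' _ _ _ _ _ _ _ _ _ _ { hb with l3 := hm } h2

theorem st2_sound {qf : ℕ → ℕ} {K1 K2 An S5n : ℕ} {v : Vars}
    (hK1 : K1 = (S5n * 9423) ^ 2) (hK2 : K2 = (An * 9423) ^ 2)
    (hv : Top qf An S5n v) {ih} (hi : SoundF v ih) : SoundF v (st2 qf K1 K2 ih) := by
  intro a1l a1h a2l a2h a3l a3h a4l a4h sl sh hb hr
  unfold st2 at hr
  rcases bor_spec hr with h | h
  · exact check_false hK1 hK2 hv hb h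
  obtain ⟨h1, h2⟩ := band_spec h
  have hi' := st3_sound hK1 hK2 hv hi
  rcases le_total (65536 * v.a2) (md a2l a2h : ℝ) with hm | hm
  · exact hi' _ _ _ _ _ _ _ _ _ _ { hb with h2 := hm } h1
  · exact hi' _ _ _ _ _ _ _ _ _ _ { hb with l2 := hm } h2

theorem st1_sound {qf : ℕ → ℕ} {K1 K2 An S5n : ℕ} {v : Vars}
    (hK1 : K1 = (S5n * 9423) ^ 2) (hK2 : K2 = (An * 9423) ^ 2)
    (hv : Top qf An S5n v) {ih} (hi : SoundF v ih) : SoundF v (st1 qf K1 K2 ih) := by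
  intro a1l a1h a2l a2h a3l a3h a4l a4h sl sh hb hr
  unfold st1 at hr
  rcases bor_spec hr with h | h
  · exact check_false hK1 hK2 hv hb h
  obtain ⟨h1, h2⟩ := band_spec h
  have hi' := st2_sound hK1 hK2 hv hi
  rcases le_total (65536 * v.a1) (md a1l a1h : ℝ) with hm | hm
  · exact hi' _ _ _ _ _ _ _ _ _ _ { hb with h1 := hm } h1
  · exact hi' _ _ _ _ _ _ _ _ _ _ { hb with l1 := hm } h2

theorem recBox_sound {qf : ℕ → ℕ} {K1 K2 An S5n : ℕ} {v : Vars}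
    (hK1 : K1 = (S5n * 9423) ^ 2) (hK2 : K2 = (An * 9423) ^ 2)
    (hv : Top qf An S5n v) (fuel : ℕ) : SoundF v (recBox qf K1 K2 fuel) := by
  induction fuel with
  | zero => exact check_sound hK1 hK2 hv
  | succ n ih => exact st1_sound hK1 hK2 hv ih

/-- No point of the data lies in the box. -/
def BoxFree (qf : ℕ → ℕ) (An S5n : ℕ) (a1l a1h a2l a2h a3l a3h a4l a4h sl sh : ℕ) : Prop :=
  ∀ v : Vars, Top qf An S5n v → InBox v a1l a1h a2l a2h a3l a3h a4l a4h sl sh → False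

theorem boxFree_of_rec {qf : ℕ → ℕ} {K1 K2 An S5n fuel : ℕ}
    (hK1 : K1 = (S5n * 9423) ^ 2) (hK2 : K2 = (An * 9423) ^ 2)
    {a1l a1h a2l a2h a3l a3h a4l a4h sl sh : ℕ}
    (h : recBox qf K1 K2 fuel a1l a1h a2l a2h a3l a3h a4l a4h sl sh = true) :
    BoxFree qf An S5n a1l a1h a2l a2h a3l a3h a4l a4h sl sh :=
  fun _ hv hb => recBox_sound hK1 hK2 hv fuel _ _ _ _ _ _ _ _ _ _ hb h

theorem boxFree_split1 {qf : ℕ → ℕ} {An S5n a1l a1h a2l a2h a3l a3h a4l a4h sl sh : ℕ} (m : ℕ)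
    (h1 : BoxFree qf An S5n a1l m a2l a2h a3l a3h a4l a4h sl sh)
    (h2 : BoxFree qf An S5n m a1h a2l a2h a3l a3h a4l a4h sl sh) :
    BoxFree qf An S5n a1l a1h a2l a2h a3l a3h a4l a4h sl sh := by
  intro v hv hb
  rcases le_total (65536 * v.a1) (m : ℝ) with hm | hm
  · exact h1 v hv { hb with h1 := hm }
  · exact h2 v hv { hb with l1 := hm }

theorem boxFree_split2 {qf : ℕ → ℕ} {An S5n a1l a1h a2l a2h a3l a3h a4l a4h sl sh : ℕ} (m : ℕ)
    (h1 : BoxFree qf An S5n a1l a1h a2l m a3l a3h a4l a4h sl sh)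
    (h2 : BoxFree qf An S5n a1l a1h m a2h a3l a3h a4l a4h sl sh) :
    BoxFree qf An S5n a1l a1h a2l a2h a3l a3h a4l a4h sl sh := by
  intro v hv hb
  rcases le_total (65536 * v.a2) (m : ℝ) with hm | hm
  · exact h1 v hv { hb with h2 := hm }
  · exact h2 v hv { hb with l2 := hm }

theorem boxFree_split3 {qf : ℕ → ℕ} {An S5n a1l a1h a2l a2h a3l a3h a4l a4h sl sh : ℕ} (m : ℕ)
    (h1 : BoxFree qf An S5n a1l a1h a2l a2h a3l m a4l a4h sl sh)
    (h2 : BoxFree qf An S5n a1l a1h a2l a2h m a3h a4l a4h sl sh) :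
    BoxFree qf An S5n a1l a1h a2l a2h a3l a3h a4l a4h sl sh := by
  intro v hv hb
  rcases le_total (65536 * v.a3) (m : ℝ) with hm | hm
  · exact h1 v hv { hb with h3 := hm }
  · exact h2 v hv { hb with l3 := hm }

theorem boxFree_split4 {qf : ℕ → ℕ} {An S5n a1l a1h a2l a2h a3l a3h a4l a4h sl sh : ℕ} (m : ℕ)
    (h1 : BoxFree qf An S5n a1l a1h a2l a2h a3l a3h a4l m sl sh)
    (h2 : BoxFree qf An S5n a1l a1h a2l a2h a3l a3h m a4h sl sh) :
    BoxFree qf An S5n a1l a1h a2l a2h a3l a3h a4l a4h sl sh := by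
  intro v hv hb
  rcases le_total (65536 * v.a4) (m : ℝ) with hm | hm
  · exact h1 v hv { hb with h4 := hm }
  · exact h2 v hv { hb with l4 := hm }

theorem boxFree_split5 {qf : ℕ → ℕ} {An S5n a1l a1h a2l a2h a3l a3h a4l a4h sl sh : ℕ} (m : ℕ)
    (h1 : BoxFree qf An S5n a1l a1h a2l a2h a3l a3h a4l a4h sl m)
    (h2 : BoxFree qf An S5n a1l a1h a2l a2h a3l a3h a4l a4h m sh) :
    BoxFree qf An S5n a1l a1h a2l a2h a3l a3h a4l a4h sl sh := by
  intro v hv hb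
  rcases le_total (65536 * v.s) (m : ℝ) with hm | hm
  · exact h1 v hv { hb with hs := hm }
  · exact h2 v hv { hb with ls := hm }

/-- The root box contains all points. -/
theorem top_false {qf : ℕ → ℕ} {An S5n : ℕ} {v : Vars} (hv : Top qf An S5n v)
    (h : BoxFree qf An S5n 0 65536 0 65536 0 65536 0 65536 0 65536) : False := by
  have a40 := hv.h4
  have a30 : 0 ≤ v.a3 := le_trans a40 hv.h34
  have a20 : 0 ≤ v.a2 := le_trans a30 hv.h23
  have a10 : 0 ≤ v.a1 := le_trans a20 hv.h12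
  have a00 : 0 ≤ v.a0 := le_trans a10 hv.h01
  have h0 := hv.h0
  have h01 := hv.h01
  have h12 := hv.h12
  have h23 := hv.h23
  have h34 := hv.h34
  have s0 := hv.hs
  have s1 := hv.hs1
  refine h v hv ⟨?_, ?_, ?_, ?_, ?_, ?_, ?_, ?_, ?_, ?_⟩ <;> push_cast <;> linarith

end Vale.Agent.Lib.P226C
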